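import Crest.Agent.R63.Deg

/-! Calibrated low-degree sources on the cube; products, negation and doubling. -/

set_option autoImplicit false
set_option linter.unusedSectionVars false
open Finset
open scoped BigOperators

namespace Crest.Agent.R63

/-- the sum of the signs of all coordinates -/
noncomputable def Ssum {ι : Type} [Fintype ι] (x : ι → Bool) : ℝ := ∑ i, sg (x i)

/-- `v` is a calibrated estimate of `Ssum` all of whose functions have degree at most `D` -/
structure Src {ι : Type} [Fintype ι] [DecidableEq ι] (D : ℕ) (v : (ι → Bool) → ℝ) : Prop where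
  deg : ∀ h : ℝ → ℝ, (fun x => h (v x)) ∈ Deg ι D
  cal : ∀ h : ℝ → ℝ, 𝔼 x, Ssum x * h (v x) = 𝔼 x, v x * h (v x)

section
variable {ι : Type} [Fintype ι] [DecidableEq ι]

/-- negation of all bits -/
def negE (ι : Type) : Equiv.Perm (ι → Bool) :=
  Function.Involutive.toPerm (fun x t => !x t) (by intro x; ext t; simp)

lemma Ssum_neg (x : ι → Bool) : Ssum (negE ι x) = - Ssum x := by
  simp [Ssum, negE, sg_not]

lemma E_neg (F : (ι → Bool) → ℝ) : 𝔼 x, F (negE ι x) = 𝔼 x, F x :=
  Fintype.expect_equiv (negE ι) _ _ (fun _ => rfl)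

lemma E_Ssum : 𝔼 x : ι → Bool, Ssum x = 0 := by
  have h := E_neg (ι := ι) Ssum
  simp only [Ssum_neg, expect_neg_distrib] at h
  linarith

lemma Src.mean {D : ℕ} {v : (ι → Bool) → ℝ} (hv : Src D v) : 𝔼 x, v x = 0 := by
  have := hv.cal (fun _ => 1)
  simp only [mul_one] at this
  rw [← this, E_Ssum]

lemma Src.neg {D : ℕ} {v : (ι → Bool) → ℝ} (hv : Src D v) :
    Src D (fun x => - v (negE ι x)) := by
  refine ⟨fun h => ?_, fun h => ?_⟩
  · exact Deg.comp id (fun b => !b) (hv.deg (fun t => h (-t)))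
  · have h1 := E_neg (ι := ι) (fun x => - Ssum x * h (- v x))
    have h2 := E_neg (ι := ι) (fun x => - v x * h (- v x))
    simp only [Ssum_neg, neg_neg] at h1
    rw [h1, h2]
    have := hv.cal (fun t => - h (-t))
    simpa using this

lemma calib {D : ℕ} (w : (ι → Bool) → ℝ) (hw : ∀ h : ℝ → ℝ, (fun x => h (w x)) ∈ Deg ι D) :
    ∃ v : (ι → Bool) → ℝ, Src D v ∧
      2 * (𝔼 x, Ssum x * w x) - 𝔼 x, w x ^ 2 ≤ 𝔼 x, v x ^ 2 := by
  classical
  let ψ : ℝ → ℝ := fun t =>
    (∑ y ∈ univ.filter (fun y => w y = t), Ssum y) / (univ.filter (fun y => w y = t)).card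
  have key : ∀ h : ℝ → ℝ, 𝔼 x, Ssum x * h (w x) = 𝔼 x, ψ (w x) * h (w x) := by
    intro h
    simp only [Fintype.expect_eq_sum_div_card]
    congr 1
    rw [← sum_fiberwise_of_maps_to (s := univ) (t := univ.image w) (g := w)
      (fun x hx => mem_image_of_mem w hx),
      ← sum_fiberwise_of_maps_to (s := univ) (t := univ.image w) (g := w)
      (fun x hx => mem_image_of_mem w hx)]
    refine sum_congr rfl fun t ht => ?_
    have hne : ((univ.filter (fun y => w y = t)).card : ℝ) ≠ 0 := by
      obtain ⟨y, -, hy⟩ := mem_image.1 ht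
      have : (univ.filter (fun y => w y = t)).Nonempty := ⟨y, by simp [hy]⟩
      exact_mod_cast this.card_pos.ne'
    rw [sum_congr rfl (g := fun x => Ssum x * h t) (fun x hx => by rw [(mem_filter.1 hx).2]),
      sum_congr rfl (f := fun x => ψ (w x) * h (w x)) (g := fun _ => ψ t * h t)
        (fun x hx => by rw [(mem_filter.1 hx).2]), ← sum_mul, sum_const, nsmul_eq_mul]
    simp only [ψ]
    field_simp
  refine ⟨fun x => ψ (w x), ⟨fun h => hw (fun t => h (ψ t)), fun h => key (fun t => h (ψ t))⟩, ?_⟩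
  have h1 := key id
  simp only [id] at h1
  rw [h1, mul_expect, ← expect_sub_distrib]
  refine expect_le_expect fun x _ => ?_
  nlinarith [sq_nonneg (ψ (w x) - w x)]

variable {I : Type} [Fintype I] [DecidableEq I]

/-- the `i`-th block of a point of the product cube -/
def co (z : I × ι → Bool) (i : I) : ι → Bool := fun t => z (i, t)

lemma E_curry (F : (I → ι → Bool) → ℝ) : 𝔼 z : I × ι → Bool, F (co z) = 𝔼 y, F y :=
  Fintype.expect_equiv (Equiv.curry I ι Bool) _ _ (fun _ => rfl)

lemma Deg.co {D : ℕ} {f : (ι → Bool) → ℝ} (hf : f ∈ Deg ι D) (i : I) :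
    (fun z : I × ι → Bool => f (co z i)) ∈ Deg (I × ι) D :=
  Deg.comp (fun t => (i, t)) id hf

/-- any function of the values of `card K` blocks has degree at most `card K * D` -/
lemma deg_vals {D : ℕ} {v : I → (ι → Bool) → ℝ} (hv : ∀ i, Src D (v i)) {K : Type} [Fintype K]
    (p : K → I) (H : (K → ℝ) → ℝ) :
    (fun z : I × ι → Bool => H (fun k => v (p k) (co z (p k)))) ∈
      Deg (I × ι) (Fintype.card K * D) := by
  classical
  let R : K → Finset ℝ := fun k => univ.image (v (p k))
  have e : (fun z : I × ι → Bool => H (fun k => v (p k) (co z (p k)))) =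
      fun z => ∑ a ∈ Fintype.piFinset R,
        H a * ∏ k, (if v (p k) (co z (p k)) = a k then (1 : ℝ) else 0) := by
    ext z
    rw [sum_eq_single (fun k => v (p k) (co z (p k)))]
    · simp
    · intro a _ ha
      obtain ⟨k, hk⟩ := Function.ne_iff.1 ha
      rw [prod_eq_zero (mem_univ k) (if_neg (Ne.symm hk)), mul_zero]
    · intro h
      exact absurd (Fintype.mem_piFinset.2 fun k => mem_image_of_mem _ (mem_univ _)) h
  rw [e]
  refine Deg.sum _ fun a _ => Deg.smul _ ?_
  have := Deg.prod (ι := I × ι) univ (d := fun _ : K => D)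
    (f := fun k z => if v (p k) (co z (p k)) = a k then (1 : ℝ) else 0)
    (fun k _ => Deg.co ((hv (p k)).deg (fun t => if t = a k then 1 else 0)) (p k))
  simpa using this

lemma cal_vals {D : ℕ} {v : I → (ι → Bool) → ℝ} (hv : ∀ i, Src D (v i)) (H : (I → ℝ) → ℝ) :
    𝔼 z : I × ι → Bool, Ssum z * H (fun i => v i (co z i)) =
      𝔼 y : I → ι → Bool, (∑ i, v i (y i)) * H (fun i => v i (y i)) := by
  have e : ∀ z : I × ι → Bool, Ssum z = ∑ i, Ssum (co z i) := by
    intro z; simp [Ssum, co, Fintype.sum_prod_type]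
  simp only [e]
  rw [E_curry (fun y => (∑ i, Ssum (y i)) * H (fun i => v i (y i)))]
  simp only [sum_mul, expect_sum_comm]
  refine sum_congr rfl fun i _ => ?_
  refine cond_swap i Ssum (v i) (v i) (hv i).cal _ ?_
  intro z a a' haa
  congr 1
  ext j
  by_cases hj : j = i
  · subst hj; simp [haa]
  · simp [Function.update_of_ne hj]

lemma E_two {X : Type} [Fintype X] [Nonempty X] (f g : X → ℝ) :
    𝔼 y : Bool → X, f (y true) * g (y false) = (𝔼 a, f a) * 𝔼 a, g a := by
  rw [indep_coord true f (fun y => g (y false)), E_coord]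
  intro z a
  rw [Function.update_of_ne (by simp)]

/-- symmetrised doubling of a source -/
lemma Src.double {D : ℕ} {v : (ι → Bool) → ℝ} (hv : Src D v) :
    ∃ v' : (Bool × ι → Bool) → ℝ, Src (2 * D) v' ∧
      (∀ h : ℝ → ℝ, 𝔼 x, h (v' x) = 𝔼 x, h (- v' x)) ∧
      𝔼 x, v' x ^ 2 = 2 * 𝔼 x, v x ^ 2 ∧
      𝔼 x, v' x ^ 4 = 2 * 𝔼 x, v x ^ 4 + 6 * (𝔼 x, v x ^ 2) ^ 2 := by
  let u : Bool → (ι → Bool) → ℝ := fun b => if b then v else fun x => - v (negE ι x)
  have hu : ∀ b, Src D (u b) := by
    intro b; cases b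
    · exact hv.neg
    · exact hv
  have hE : ∀ h : ℝ → ℝ, 𝔼 x : Bool × ι → Bool, h (∑ b, u b (co x b)) =
      𝔼 y : Bool → ι → Bool, h (v (y true) - v (y false)) := by
    intro h
    rw [E_curry (fun y => h (∑ b, u b (y b)))]
    have hinv : Function.Involutive
        (fun (y : Bool → ι → Bool) (b : Bool) => if b then y b else negE ι (y b)) := by
      intro y; ext b t; cases b <;> simp [negE]
    refine Fintype.expect_equiv (Function.Involutive.toPerm _ hinv) _ _ fun y => ?_
    simp [u, sub_eq_add_neg]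
  have m1 := hv.mean
  refine ⟨fun z => ∑ b, u b (co z b), ⟨fun h => ?_, fun h => ?_⟩, fun h => ?_, ?_, ?_⟩
  · have := deg_vals hu id (fun a => h (∑ b, a b))
    simpa using this
  · have := cal_vals hu (fun a => h (∑ b, a b))
    rw [this, E_curry (fun y => (∑ b, u b (y b)) * h (∑ b, u b (y b)))]
  · rw [hE h, hE (fun t => h (-t))]
    have hinv : Function.Involutive (fun (y : Bool → ι → Bool) (b : Bool) => y (!b)) := by
      intro y; ext b t; simp
    refine Fintype.expect_equiv (Function.Involutive.toPerm _ hinv) _ _ fun y => ?_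
    simp
  · rw [hE (fun t => t ^ 2)]
    have e : ∀ y : Bool → ι → Bool, (v (y true) - v (y false)) ^ 2 =
        v (y true) ^ 2 * 1 - 2 * (v (y true) * v (y false)) + 1 * v (y false) ^ 2 := by
      intro y; ring
    simp only [e, expect_add_distrib, expect_sub_distrib, ← mul_expect]
    rw [E_two (fun a => v a ^ 2) (fun _ => 1), E_two v v, E_coord false (fun a => v a ^ 2), m1]
    simp; ring
  · rw [hE (fun t => t ^ 4)]
    have e : ∀ y : Bool → ι → Bool, (v (y true) - v (y false)) ^ 4 =
        v (y true) ^ 4 - 4 * (v (y true) ^ 3 * v (y false))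
          + 6 * (v (y true) ^ 2 * v (y false) ^ 2) - 4 * (v (y true) * v (y false) ^ 3)
          + v (y false) ^ 4 := by
      intro y; ring
    simp only [e, expect_add_distrib, expect_sub_distrib, ← mul_expect]
    rw [E_two (fun a => v a ^ 3) v, E_two v (fun a => v a ^ 3),
      E_two (fun a => v a ^ 2) (fun a => v a ^ 2), E_coord false (fun a => v a ^ 4),
      E_coord true (fun a => v a ^ 4), m1]
    ring

end

end Crest.Agent.R63
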