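import Crest.Agent.R63.Deg

/-! The bounded degree-five Chebyshev function of the signs of 256 variables. -/

set_option autoImplicit false
set_option linter.unusedSectionVars false
open Finset
open scoped BigOperators

namespace Crest.Agent.R63

/-- integer valued sign -/
noncomputable def sz (t : ℝ) : ℤ := if 0 < t then 1 else if t < 0 then -1 else 0

lemma sz_cases (t : ℝ) : (0 < t ∧ sz t = 1) ∨ (t < 0 ∧ sz t = -1) ∨ (t = 0 ∧ sz t = 0) := by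
  rcases lt_trichotomy t 0 with h | h | h
  · right; left; exact ⟨h, by simp [sz, h, not_lt.2 h.le]⟩
  · right; right; exact ⟨h, by simp [sz, h]⟩
  · left; exact ⟨h, by simp [sz, h]⟩

lemma sz_neg (t : ℝ) : sz (-t) = - sz t := by
  rcases sz_cases t with ⟨h, e⟩ | ⟨h, e⟩ | ⟨h, e⟩
  · rw [e]; simp [sz, h, not_lt.2 h.le]
  · rw [e]; simp [sz, h]
  · subst h; simp [sz]

lemma exists_pm (m : ℕ) (a : ℤ) (h0 : 0 ≤ a) (h1 : a ≤ 2 ^ m) :
    ∃ φ : (Fin m → Bool) → ℝ, (∀ ε, φ ε = 1 ∨ φ ε = -1) ∧ ∑ ε, φ ε = 2 * a - 2 ^ m := by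
  classical
  obtain ⟨k, rfl⟩ := Int.eq_ofNat_of_zero_le h0
  have hk : k ≤ (univ : Finset (Fin m → Bool)).card := by
    simp only [card_univ, Fintype.card_pi, Fintype.card_bool, prod_const, Fintype.card_fin]
    exact_mod_cast h1
  obtain ⟨t, -, ht⟩ := exists_subset_card_eq hk
  refine ⟨fun ε => 2 * (if ε ∈ t then 1 else 0) - 1, fun ε => ?_, ?_⟩
  · by_cases h : ε ∈ t <;> simp [h]; norm_num
  · rw [sum_sub_distrib, ← mul_sum]
    simp [ht]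

lemma E_abs_ge {X : Type} [Fintype X] [Nonempty X] (v : X → ℝ) (hV : 0 < 𝔼 x, v x ^ 2)
    (h4 : 𝔼 x, v x ^ 4 ≤ 4 * (𝔼 x, v x ^ 2) ^ 2) :
    Real.sqrt (𝔼 x, v x ^ 2) / 2 ≤ 𝔼 x, |v x| := by
  set V := 𝔼 x, v x ^ 2 with hVdef
  set σ := Real.sqrt V with hσ
  have hσ0 : 0 < σ := Real.sqrt_pos.2 hV
  have hσ2 : σ ^ 2 = V := Real.sq_sqrt hV.le
  have h1 : 𝔼 x, (3 / (4 * σ) * v x ^ 2 - 1 / (16 * σ ^ 3) * v x ^ 4) ≤ 𝔼 x, |v x| := by
    refine expect_le_expect fun x _ => ?_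
    have ha : 0 ≤ |v x| := abs_nonneg _
    have e2 : v x ^ 2 = |v x| ^ 2 := (sq_abs _).symm
    have e4 : v x ^ 4 = |v x| ^ 4 := by
      rw [show (4 : ℕ) = 2 * 2 from rfl, pow_mul, pow_mul, sq_abs]
    rw [e2, e4]
    generalize |v x| = a at ha
    have : a - (3 / (4 * σ) * a ^ 2 - 1 / (16 * σ ^ 3) * a ^ 4)
        = a * ((a - 2 * σ) ^ 2 * (a + 4 * σ)) / (16 * σ ^ 3) := by
      field_simp; ring
    have h2 : 0 ≤ a * ((a - 2 * σ) ^ 2 * (a + 4 * σ)) / (16 * σ ^ 3) := by positivity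
    linarith
  rw [expect_sub_distrib, ← mul_expect, ← mul_expect, ← hVdef] at h1
  refine le_trans ?_ h1
  have h3 : 1 / (16 * σ ^ 3) * 𝔼 x, v x ^ 4 ≤ 1 / (16 * σ ^ 3) * (4 * V ^ 2) := by gcongr
  have h5 : σ / 2 = 3 / (4 * σ) * V - 1 / (16 * σ ^ 3) * (4 * V ^ 2) := by
    rw [← hσ2]; field_simp; ring
  linarith

lemma cheb_lower {X : Type} [Fintype X] [Nonempty X] (n : ℕ) (hn : 0 < n) (v : X → ℝ)
    (h0 : 𝔼 x, v x = 0) (hs : 𝔼 x, (sz (v x) : ℝ) = 0) :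
    (𝔼 x, |v x|) * (5 - 20 * (1 + 3 * n) / n ^ 2) ≤
      𝔼 y : Fin n → X, (∑ i, v (y i)) *
        (16 * ((∑ i, (sz (v (y i)) : ℝ)) / n) ^ 5 - 20 * ((∑ i, (sz (v (y i)) : ℝ)) / n) ^ 3
          + 5 * ((∑ i, (sz (v (y i)) : ℝ)) / n)) := by
  have hn' : (0 : ℝ) < n := by exact_mod_cast hn
  set e := 𝔼 x, |v x| with he
  have he0 : 0 ≤ e := expect_nonneg fun x _ => abs_nonneg _
  have key : ∀ i : Fin n, e * (5 / n - 20 * (1 + 3 * n) / n ^ 3) ≤ 𝔼 y : Fin n → X, v (y i) *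
        (16 * ((∑ i, (sz (v (y i)) : ℝ)) / n) ^ 5 - 20 * ((∑ i, (sz (v (y i)) : ℝ)) / n) ^ 3
          + 5 * ((∑ i, (sz (v (y i)) : ℝ)) / n)) := by
    intro i
    let B' : (Fin n → X) → ℝ := fun y => ∑ j ∈ univ.erase i, (sz (v (y j)) : ℝ)
    have hB' : ∀ y a, B' (Function.update y i a) = B' y := by
      intro y a
      refine sum_congr rfl fun j hj => ?_
      rw [Function.update_of_ne (ne_of_mem_erase hj)]
    have hB2 : 𝔼 y, B' y ^ 2 ≤ n := by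
      rw [E_sq_sum_indep (univ.erase i) (fun a => (sz (v a) : ℝ)) hs]
      have h1 : 𝔼 a, (sz (v a) : ℝ) ^ 2 ≤ 1 := by
        refine expect_le univ_nonempty fun a _ => ?_
        rcases sz_cases (v a) with ⟨_, h⟩ | ⟨_, h⟩ | ⟨_, h⟩ <;> simp [h]
      have h2 : ((univ.erase i).card : ℝ) ≤ n := by
        have : (univ.erase i).card ≤ n := (card_le_univ _).trans (by simp)
        exact_mod_cast this
      have h3 : 0 ≤ 𝔼 a, (sz (v a) : ℝ) ^ 2 := expect_nonneg fun a _ => sq_nonneg _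
      nlinarith
    have h1 : 𝔼 y : Fin n → X, (v (y i) * (16 / n ^ 5 * B' y ^ 5 - 20 / n ^ 3 *
          (3 * B' y + B' y ^ 3) + 5 / n * B' y) + |v (y i)| * (5 / n - 20 / n ^ 3 *
            (1 + 3 * B' y ^ 2))) ≤ 𝔼 y : Fin n → X, v (y i) *
        (16 * ((∑ i, (sz (v (y i)) : ℝ)) / n) ^ 5 - 20 * ((∑ i, (sz (v (y i)) : ℝ)) / n) ^ 3
          + 5 * ((∑ i, (sz (v (y i)) : ℝ)) / n)) := by
      refine expect_le_expect fun y _ => ?_
      rw [← add_sum_erase univ _ (mem_univ i)]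
      change _ ≤ v (y i) * (16 * ((_ + B' y) / n) ^ 5 - 20 * ((_ + B' y) / n) ^ 3
        + 5 * ((_ + B' y) / n))
      generalize B' y = b
      have hodd : Odd 5 := by decide
      rcases sz_cases (v (y i)) with ⟨h, e⟩ | ⟨h, e⟩ | ⟨h, e⟩
      · rw [e, abs_of_pos h]
        have : b ^ 5 ≤ (1 + b) ^ 5 := hodd.strictMono_pow.monotone (by linarith)
        have h2 : 0 ≤ v (y i) * (16 / n ^ 5 * ((1 + b) ^ 5 - b ^ 5)) :=
          mul_nonneg h.le (mul_nonneg (by positivity) (by linarith))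
        push_cast
        refine le_of_sub_nonneg (h2.trans_eq ?_)
        field_simp; ring
      · rw [e, abs_of_neg h]
        have : (-1 + b) ^ 5 ≤ b ^ 5 := hodd.strictMono_pow.monotone (by linarith)
        have h2 : 0 ≤ - v (y i) * (16 / n ^ 5 * (b ^ 5 - (-1 + b) ^ 5)) :=
          mul_nonneg (by linarith) (mul_nonneg (by positivity) (by linarith))
        push_cast
        refine le_of_sub_nonneg (h2.trans_eq ?_)
        field_simp; ring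
      · rw [h]; simp
    refine le_trans ?_ h1
    rw [expect_add_distrib, indep_coord i v _ (fun y a => by simp only [hB']), h0, zero_mul,
      zero_add, indep_coord i (fun a => |v a|) _ (fun y a => by simp only [hB'])]
    refine mul_le_mul_of_nonneg_left ?_ he0
    rw [expect_sub_distrib, ← mul_expect, expect_add_distrib, ← mul_expect]
    simp only [Fintype.expect_const]
    have : 20 / (n : ℝ) ^ 3 * (1 + 3 * 𝔼 y, B' y ^ 2) ≤ 20 / (n : ℝ) ^ 3 * (1 + 3 * n) := by gcongr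
    have e2 : 20 * (1 + 3 * (n : ℝ)) / n ^ 3 = 20 / (n : ℝ) ^ 3 * (1 + 3 * n) := by ring
    linarith
  simp only [sum_mul]
  rw [expect_sum_comm]
  refine le_trans ?_ (sum_le_sum fun i _ => key i)
  rw [sum_const, card_univ, Fintype.card_fin, nsmul_eq_mul]
  apply le_of_eq
  field_simp

lemma xpart : ∃ (n m : ℕ) (g : (Fin n → ℝ) → ℝ) (φ : (Fin n → ℝ) → (Fin m → Bool) → ℝ),
    5 ≤ n ∧ (∀ x ε, φ x ε = 1 ∨ φ x ε = -1) ∧ (∀ x, ∑ ε, φ x ε = 2 ^ m * g x) ∧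
    (∀ (ι : Type) (D : ℕ) (f : Fin n → (ι → Bool) → ℝ),
      (∀ i (h : ℝ → ℝ), (fun z => h (f i z)) ∈ Deg ι D) →
        (fun z => g (fun i => f i z)) ∈ Deg ι (5 * D)) ∧
    (∀ (X : Type) [Fintype X] [Nonempty X] (v : X → ℝ), 𝔼 x, v x = 0 →
      (∀ h : ℝ → ℝ, 𝔼 x, h (v x) = 𝔼 x, h (- v x)) → 0 < 𝔼 x, v x ^ 2 →
      𝔼 x, v x ^ 4 ≤ 4 * (𝔼 x, v x ^ 2) ^ 2 →
      11 / 2 * 𝔼 x, v x ^ 2 ≤ (𝔼 y : Fin n → X, (∑ i, v (y i)) * g (fun i => v (y i))) ^ 2) := by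
  let g : (Fin 256 → ℝ) → ℝ := fun x =>
    16 * ((∑ i, (sz (x i) : ℝ)) / (256 : ℕ)) ^ 5 - 20 * ((∑ i, (sz (x i) : ℝ)) / (256 : ℕ)) ^ 3
      + 5 * ((∑ i, (sz (x i) : ℝ)) / (256 : ℕ))
  have hφ : ∀ x : Fin 256 → ℝ, ∃ φ : (Fin 41 → Bool) → ℝ, (∀ ε, φ ε = 1 ∨ φ ε = -1) ∧
      ∑ ε, φ ε = 2 ^ 41 * g x := by
    intro x
    set B : ℤ := ∑ i, sz (x i) with hB
    have hBr : (∑ i, (sz (x i) : ℝ)) = B := by rw [hB]; push_cast; rfl
    have hB1 : |B| ≤ 256 := by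
      refine (abs_sum_le_sum_abs _ _).trans ?_
      refine (sum_le_card_nsmul _ _ 1 fun i _ => ?_).trans (by simp)
      rcases sz_cases (x i) with ⟨_, h⟩ | ⟨_, h⟩ | ⟨_, h⟩ <;> simp [h]
    obtain ⟨h1, h2⟩ := abs_le.1 hB1
    obtain ⟨φ, hφ1, hφ2⟩ := exists_pm 41
      (256 ^ 5 + 16 * B ^ 5 - 20 * 256 ^ 2 * B ^ 3 + 5 * 256 ^ 4 * B)
      (by
        have : 0 ≤ (B + 256) * (4 * B ^ 2 - 2 * 256 * B - 256 ^ 2) ^ 2 :=
          mul_nonneg (by linarith) (sq_nonneg _)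
        refine this.trans_eq ?_
        ring)
      (by
        have : 0 ≤ (256 - B) * (4 * B ^ 2 + 2 * 256 * B - 256 ^ 2) ^ 2 :=
          mul_nonneg (by linarith) (sq_nonneg _)
        refine le_of_sub_nonneg (this.trans_eq ?_)
        ring)
    refine ⟨φ, hφ1, ?_⟩
    rw [hφ2]
    simp only [g, hBr]
    push_cast
    ring
  choose φ hφ1 hφ2 using hφ
  refine ⟨256, 41, g, φ, by norm_num, hφ1, hφ2, ?_, ?_⟩
  · intro ι D f hf
    have hB : (fun z => (∑ i, (sz (f i z) : ℝ)) / (256 : ℕ)) ∈ Deg ι D := by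
      simp only [div_eq_mul_inv]
      exact Deg.smul' _ (Deg.sum _ fun i _ => hf i (fun t => (sz t : ℝ)))
    exact Deg.add (Deg.sub (Deg.smul _ (Deg.pow hB 5))
      (Deg.smul _ (Deg.mono (by omega) (Deg.pow hB 3)))) (Deg.smul _ (Deg.mono (by omega) hB))
  · intro X _ _ v h0 hsym hV h4
    have hs : 𝔼 x, (sz (v x) : ℝ) = 0 := by
      have := hsym (fun t => (sz t : ℝ))
      simp only [sz_neg, Int.cast_neg, expect_neg_distrib] at this
      linarith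
    have h1 := cheb_lower 256 (by norm_num) v h0 hs
    have h2 := E_abs_ge v hV h4
    have hσ2 : Real.sqrt (𝔼 x, v x ^ 2) ^ 2 = 𝔼 x, v x ^ 2 := Real.sq_sqrt hV.le
    have hσ0 : 0 ≤ Real.sqrt (𝔼 x, v x ^ 2) := Real.sqrt_nonneg _
    have h3 : Real.sqrt (𝔼 x, v x ^ 2) / 2 * (47 / 10) ≤
        𝔼 y : Fin 256 → X, (∑ i, v (y i)) * g (fun i => v (y i)) := by
      refine le_trans ?_ h1
      gcongr
      norm_num
    have h5 := pow_le_pow_left₀ (by positivity) h3 2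
    refine le_trans ?_ h5
    rw [mul_pow, div_pow, hσ2]
    nlinarith

end Crest.Agent.R63
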