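import Crest.Agent.R63.Hid
import Crest.Agent.R63.Src
import Crest.Agent.R63.XPart

/-! The boosting step: the ratio variance / degree is multiplied by an absolute constant `> 1`. -/

set_option autoImplicit false
set_option linter.unusedSectionVars false
open Finset
open scoped BigOperators

namespace Crest.Agent.R63

section
variable {C : Type} [Fintype C] [DecidableEq C] (cls : ℝ → C) {m n : ℕ}

/-- the estimator used in the boosting step -/
noncomputable def west (φ : (Fin n → ℝ) → (Fin m → Bool) → ℝ) (ctot lam : ℝ)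
    (a : Fin m × Fin n × C → ℝ) (x : Fin n → ℝ) : ℝ :=
  (1 - Gd cls a) * (∑ p, a p + ∑ q ∈ univ.filter (fun q : Fin n => q.val < 5), x q)
    + Gd cls a * ctot + lam * Phi cls (φ x) a

lemma cond_mean {X : Type} [Fintype X] [Nonempty X] (c : X → C)
    (hπ : ∀ j, 0 < 𝔼 x, ind (c x = j)) (f : X → ℝ) (h : C → ℝ) :
    𝔼 x, f x * h (c x) =
      𝔼 x, ((𝔼 y, f y * ind (c y = c x)) / 𝔼 y, ind (c y = c x)) * h (c x) := by
  have e : ∀ (F : X → ℝ), 𝔼 x, F x * h (c x) = ∑ j, h j * 𝔼 x, F x * ind (c x = j) := by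
    intro F
    simp only [mul_expect]
    rw [← expect_sum_comm]
    refine expect_congr rfl fun x _ => ?_
    rw [sum_eq_single (c x)]
    · rw [ind_pos rfl]; ring
    · intro j _ hj; rw [ind_neg (Ne.symm hj)]; ring
    · intro h; exact absurd (mem_univ _) h
  rw [e f, e (fun x => (𝔼 y, f y * ind (c y = c x)) / 𝔼 y, ind (c y = c x))]
  refine sum_congr rfl fun j _ => ?_
  congr 1
  have : ∀ x, ((𝔼 y, f y * ind (c y = c x)) / 𝔼 y, ind (c y = c x)) * ind (c x = j) =
      ((𝔼 y, f y * ind (c y = j)) / 𝔼 y, ind (c y = j)) * ind (c x = j) := by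
    intro x
    by_cases hx : c x = j
    · rw [hx]
    · rw [ind_neg hx]; ring
  simp only [this]
  rw [← mul_expect, div_mul_cancel₀ _ (hπ j).ne']

lemma boost_prob {X : Type} [Fintype X] [Nonempty X] [Nontrivial C] (hn : 5 ≤ n) (v : X → ℝ)
    (h0 : 𝔼 x, v x = 0) (g : (Fin n → ℝ) → ℝ) (φ : (Fin n → ℝ) → (Fin m → Bool) → ℝ)
    (hφ : ∀ x ε, φ x ε = 1 ∨ φ x ε = -1) (hg : ∀ x, ∑ ε, φ x ε = 2 ^ m * g x)
    (c ρ : C → ℝ) (hc : ∀ h : C → ℝ, 𝔼 x, (v x - c (cls (v x))) * h (cls (v x)) = 0)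
    (hρ : ∀ h : C → ℝ, 𝔼 x, (v x - c (cls (v x))) ^ 2 * h (cls (v x)) =
      𝔼 x, ρ (cls (v x)) * h (cls (v x)))
    (lam : ℝ) (hlam : lam = 𝔼 y : Fin n → X, (∑ i, v (y i)) * g (fun i => v (y i))) :
    𝔼 z : (Fin m × Fin n × C) ⊕ Fin n → X, (∑ i, v (z i) - west cls φ (m * n * ∑ j, c j) lam
        (fun p => v (z (Sum.inl p))) (fun q => v (z (Sum.inr q)))) ^ 2 =
      (n - 5) * (𝔼 x, v x ^ 2) - (𝔼 y : Fin m × Fin n × C → X, Gd cls (fun p => v (y p))) *
        (lam ^ 2 - 5 * (𝔼 x, v x ^ 2) - m * n * ∑ j, ρ j) := by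
  set V := 𝔼 x, v x ^ 2 with hV
  set PG := 𝔼 y : Fin m × Fin n × C → X, Gd cls (fun p => v (y p)) with hPG
  let δ : X → ℝ := fun x => v x - c (cls (v x))
  have e : ∀ z : (Fin m × Fin n × C) ⊕ Fin n → X,
      (∑ i, v (z i) - west cls φ (m * n * ∑ j, c j) lam
        (fun p => v (z (Sum.inl p))) (fun q => v (z (Sum.inr q)))) ^ 2 =
      (1 - Gd cls (fun p => v (z (Sum.inl p)))) *
          (∑ q ∈ univ.filter (fun q : Fin n => ¬ q.val < 5), v (z (Sum.inr q))) ^ 2
        + (Gd cls (fun p => v (z (Sum.inl p))) * (∑ p, δ (z (Sum.inl p))) ^ 2) * 1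
        + 2 * ∑ p, δ (z (Sum.inl p)) *
          (Gd cls (fun p => v (z (Sum.inl p))) * (∑ q, v (z (Sum.inr q)))
            - lam * Phi cls (φ (fun q => v (z (Sum.inr q)))) (fun p => v (z (Sum.inl p))))
        + Gd cls (fun p => v (z (Sum.inl p))) * (∑ q, v (z (Sum.inr q))) ^ 2
        - 2 * lam * ∑ t ∈ (univ : Finset (Fin m)).powerset, Mon cls t (fun p => v (z (Sum.inl p))) *
            ((∑ q, v (z (Sum.inr q))) * coef (φ (fun q => v (z (Sum.inr q)))) t)
        + lam ^ 2 * (Gd cls (fun p => v (z (Sum.inl p))) * 1) := by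
    intro z
    have e1 : ∑ t ∈ (univ : Finset (Fin m)).powerset, Mon cls t (fun p => v (z (Sum.inl p))) *
        ((∑ q, v (z (Sum.inr q))) * coef (φ (fun q => v (z (Sum.inr q)))) t) =
        (∑ q, v (z (Sum.inr q))) *
          Phi cls (φ (fun q => v (z (Sum.inr q)))) (fun p => v (z (Sum.inl p))) := by
      rw [Phi_eq, mul_sum]
      exact sum_congr rfl fun t _ => by ring
    rw [e1, ← sum_mul, Fintype.sum_sum_type, west,
      ← sum_filter_add_sum_filter_not univ (fun q : Fin n => q.val < 5)]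
    rcases Gd_cases cls (φ (fun q => v (z (Sum.inr q)))) (hφ _) (fun p => v (z (Sum.inl p))) with
      ⟨h1, h2⟩ | ⟨h1, h2, h3⟩
    · rw [h1, h2]; ring
    · have h4 : ∑ p, δ (z (Sum.inl p)) = ∑ p, v (z (Sum.inl p)) - m * n * ∑ j, c j := by
        simp only [δ, sum_sub_distrib]
        rw [sum_of_bij cls h3 c]
      rw [h1, h4]
      rcases h2 with h2 | h2 <;> rw [h2] <;> ring
  simp only [e, expect_add_distrib, expect_sub_distrib, ← mul_expect, expect_sum_comm]
  have E1 := E_sum_split (X := X) (fun y : Fin m × Fin n × C → X => 1 - Gd cls (fun p => v (y p)))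
    (fun x : Fin n → X => (∑ q ∈ univ.filter (fun q : Fin n => ¬ q.val < 5), v (x q)) ^ 2)
  have E2 := E_sum_split (X := X)
    (fun y : Fin m × Fin n × C → X => Gd cls (fun p => v (y p)) * (∑ p, δ (y p)) ^ 2)
    (fun _ : Fin n → X => 1)
  have E4 := E_sum_split (X := X) (fun y : Fin m × Fin n × C → X => Gd cls (fun p => v (y p)))
    (fun x : Fin n → X => (∑ q, v (x q)) ^ 2)
  have E5 := fun t => E_sum_split (X := X)
    (fun y : Fin m × Fin n × C → X => Mon cls t (fun p => v (y p)))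
    (fun x : Fin n → X => (∑ q, v (x q)) * coef (φ (fun q => v (x q))) t)
  have E6 := E_sum_split (X := X) (fun y : Fin m × Fin n × C → X => Gd cls (fun p => v (y p)))
    (fun _ : Fin n → X => 1)
  have hcl : ∀ {I : Type} [DecidableEq I] (z : I → X) (p : I) (a a' : X),
      cls (v a) = cls (v a') → ∀ p',
        cls (v (Function.update z p a p')) = cls (v (Function.update z p a' p')) := by
    intro I _ z p a a' h p'
    by_cases hp : p' = p
    · subst hp; simpa using h
    · simp [Function.update_of_ne hp]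
  have E3 : ∀ p, 𝔼 z : (Fin m × Fin n × C) ⊕ Fin n → X, δ (z (Sum.inl p)) *
      (Gd cls (fun p => v (z (Sum.inl p))) * (∑ q, v (z (Sum.inr q)))
        - lam * Phi cls (φ (fun q => v (z (Sum.inr q)))) (fun p => v (z (Sum.inl p)))) = 0 := by
    intro p
    have := cond_swap (Sum.inl p : (Fin m × Fin n × C) ⊕ Fin n) δ (fun _ => 0)
      (fun x => cls (v x)) (fun h => by rw [hc h]; simp)
      (fun z => Gd cls (fun p => v (z (Sum.inl p))) * (∑ q, v (z (Sum.inr q)))
        - lam * Phi cls (φ (fun q => v (z (Sum.inr q)))) (fun p => v (z (Sum.inl p)))) (by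
        intro z a a' haa
        have h1 := fun p' => hcl z (Sum.inl p) a a' haa (Sum.inl p')
        simp only [Function.update_of_ne (Sum.inr_ne_inl)]
        rw [Gd_congr cls h1, Phi_congr cls _ h1])
    simpa using this
  have E2' : 𝔼 y : Fin m × Fin n × C → X, Gd cls (fun p => v (y p)) * (∑ p, δ (y p)) ^ 2 =
      PG * (m * n * ∑ j, ρ j) := by
    rw [E_sq_sum univ δ (fun x => cls (v x)) hc _
      (fun p _ z a a' haa => Gd_congr cls (hcl z p a a' haa))]
    rw [sum_congr rfl (fun p _ => cond_swap p (fun x => δ x ^ 2) (fun x => ρ (cls (v x)))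
      (fun x => cls (v x)) hρ (fun y => Gd cls (fun p => v (y p)))
      (fun z a a' haa => Gd_congr cls (hcl z p a a' haa))), ← expect_sum_comm, hPG, expect_mul]
    refine expect_congr rfl fun y _ => ?_
    rw [← sum_mul]
    rcases Gd_cases cls (fun _ => 1) (fun _ => Or.inl rfl) (fun p => v (y p)) with
      ⟨h1, -⟩ | ⟨-, -, h3⟩
    · rw [h1]; ring
    · rw [sum_of_bij cls h3 ρ]; ring
  have E5' : ∑ t ∈ (univ : Finset (Fin m)).powerset,
      (𝔼 y : Fin m × Fin n × C → X, Mon cls t (fun p => v (y p))) *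
        𝔼 x : Fin n → X, (∑ q, v (x q)) * coef (φ (fun q => v (x q))) t = PG * lam := by
    rw [sum_eq_single ∅]
    · simp only [Mon_empty, coef, prod_empty, mul_one, hg]
      rw [hlam]
      congr 1
      refine expect_congr rfl fun x _ => ?_
      field_simp
    · intro t _ ht
      rw [E_Mon cls (by omega) v ht, zero_mul]
    · intro h; exact absurd (empty_mem_powerset _) h
  have hcard : ((univ.filter (fun q : Fin n => ¬ q.val < 5)).card : ℝ) = n - 5 := by
    have h1 := card_filter_add_card_filter_not (s := (univ : Finset (Fin n)))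
      (fun q : Fin n => q.val < 5)
    have h2 : (univ.filter (fun q : Fin n => q.val < 5)).card = 5 := by
      rw [Fin.card_filter_val_lt]; omega
    rw [h2, card_univ, Fintype.card_fin] at h1
    have h3 : ((5 + (univ.filter (fun q : Fin n => ¬ q.val < 5)).card : ℕ) : ℝ) = n := by
      exact_mod_cast h1
    push_cast at h3
    linarith
  simp only at E1 E2 E4 E5 E6
  rw [E1, E2, E4, E6, sum_congr rfl (fun t _ => E5 t), sum_congr rfl (fun p _ => E3 p), E2', E5',
    E_sq_sum_indep _ v h0, E_sq_sum_indep _ v h0, hcard, expect_sub_distrib, ← hPG, ← hV]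
  simp only [Fintype.expect_const, sum_const_zero, card_univ, Fintype.card_fin]
  ring

lemma west_deg {ι : Type} [Fintype ι] [DecidableEq ι] {D : ℕ} {v : (ι → Bool) → ℝ} (hv : Src D v)
    (hn : 5 ≤ n) (g : (Fin n → ℝ) → ℝ) (φ : (Fin n → ℝ) → (Fin m → Bool) → ℝ)
    (hφ : ∀ x ε, φ x ε = 1 ∨ φ x ε = -1) (hg : ∀ x, ∑ ε, φ x ε = 2 ^ m * g x)
    (hgd : ∀ (ι : Type) (D : ℕ) (f : Fin n → (ι → Bool) → ℝ),
      (∀ i (h : ℝ → ℝ), (fun z => h (f i z)) ∈ Deg ι D) →
        (fun z => g (fun i => f i z)) ∈ Deg ι (5 * D))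
    (ctot lam : ℝ) (h : ℝ → ℝ) :
    (fun z : ((Fin m × Fin n × C) ⊕ Fin n) × ι → Bool => h (west cls φ ctot lam
      (fun p => v (co z (Sum.inl p))) (fun q => v (co z (Sum.inr q))))) ∈
      Deg _ ((m * n * Fintype.card C + 5) * D) := by
  let I := (Fin m × Fin n × C) ⊕ Fin n
  have hvI : ∀ _i : I, Src D v := fun _ => hv
  let up : Fin 5 → Fin n := fun k => ⟨k, by omega⟩
  have hlow : ∀ x : Fin n → ℝ,
      ∑ q ∈ univ.filter (fun q : Fin n => q.val < 5), x q = ∑ k, x (up k) := by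
    intro x
    symm
    refine sum_bij (fun k _ => up k) (fun k _ => by simp [up]) ?_ ?_ (fun _ _ => rfl)
    · intro a _ b _ hab
      exact Fin.ext (by simpa [up] using hab)
    · intro q hq
      exact ⟨⟨q, (mem_filter.1 hq).2⟩, mem_univ _, rfl⟩
  have e : ∀ (a : Fin m × Fin n × C → ℝ) (x : Fin n → ℝ), h (west cls φ ctot lam a x) =
      ((1 - Gd cls a) * h (∑ p, a p + ∑ k, x (up k)) + Gd cls a * ((h (ctot + lam) +
        h (ctot - lam)) / 2)) + (∑ t ∈ (univ : Finset (Fin m)).powerset,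
          Mon cls t a * coef (φ x) t) * ((h (ctot + lam) - h (ctot - lam)) / 2) := by
    intro a x
    rw [← Phi_eq, west, hlow]
    rcases Gd_cases cls (φ x) (hφ x) a with ⟨h1, h2⟩ | ⟨h1, h2 | h2, -⟩
    · rw [h1, h2]; simp
    · rw [h1, h2]; simp; ring
    · rw [h1, h2]; simp [sub_eq_add_neg]; ring
  simp only [e]
  refine Deg.add ?_ (Deg.smul' _ (Deg.sum _ fun t _ => ?_))
  · have := deg_vals (v := fun _ : I => v) hvI (K := (Fin m × Fin n × C) ⊕ Fin 5)
      (Sum.map id up) (fun b => (1 - Gd cls (fun p => b (Sum.inl p))) *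
        h (∑ p, b (Sum.inl p) + ∑ k, b (Sum.inr k)) + Gd cls (fun p => b (Sum.inl p)) *
          ((h (ctot + lam) + h (ctot - lam)) / 2))
    simpa [mul_assoc] using this
  · by_cases ht : t = ∅
    · subst ht
      have h1 := deg_vals (v := fun _ : I => v) hvI (K := Fin m × Fin n × C) Sum.inl
        (fun b => Mon cls ∅ b)
      have h2 := hgd (I × ι) D (fun q z => v (co z (Sum.inr q)))
        (fun q h => Deg.co (hv.deg h) (Sum.inr q))
      have h3 := Deg.mul h1 h2
      have e2 : ∀ x, coef (φ x) ∅ = g x := by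
        intro x
        simp only [coef, prod_empty, mul_one, hg]
        field_simp
      simp only [e2]
      refine Deg.mono (le_of_eq ?_) h3
      simp; ring
    · obtain ⟨k, hk, h1⟩ := Mon_deg cls (ι := I × ι) (D := D)
        (fun p z => v (co z (Sum.inl p))) (fun p h => Deg.co (hv.deg h) (Sum.inl p))
        (fun j H => by
          have := deg_vals (v := fun _ : I => v) hvI (K := Fin n × C)
            (fun p => Sum.inl (j, p)) H
          simpa using this) ht
      have h2 := deg_vals (v := fun _ : I => v) hvI (K := Fin n) Sum.inr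
        (fun x => coef (φ x) t)
      refine Deg.mono ?_ (Deg.mul h1 h2)
      rw [Fintype.card_fin]
      nlinarith [Nat.zero_le D]

end

theorem boost : ∃ κ : ℝ, 0 < κ ∧ ∀ (ι : Type) [Fintype ι] [DecidableEq ι] (D : ℕ)
    (v : (ι → Bool) → ℝ), Src D v → (∀ h : ℝ → ℝ, 𝔼 x, h (v x) = 𝔼 x, h (- v x)) →
    0 < 𝔼 x, v x ^ 2 → 𝔼 x, v x ^ 4 ≤ 4 * (𝔼 x, v x ^ 2) ^ 2 →
    ∃ (ι' : Type) (_ : Fintype ι') (_ : DecidableEq ι') (N : ℕ) (v' : (ι' → Bool) → ℝ),
      0 < N ∧ Src (N * D) v' ∧ (1 + κ) * N * 𝔼 x, v x ^ 2 ≤ 𝔼 x, v' x ^ 2 := by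
  classical
  obtain ⟨n, m, g, φ, hn, hφ, hg, hgd, hgain⟩ := xpart
  obtain ⟨Q, η, hη, hcls⟩ := classes (1 / (4 * (m * n + 1))) (by positivity)
  refine ⟨min η 1 ^ (m * n * Q) / (4 * (m * n * Q + 5)), by positivity, ?_⟩
  intro ι _ _ D v hv hsym hV h4
  obtain ⟨C, cls, a, hQ, hπ, hsum⟩ := hcls (ι → Bool) v hV h4
  set V := 𝔼 x, v x ^ 2 with hVdef
  have h0 := hv.mean
  have hπ0 : ∀ j, 0 < 𝔼 x, ind (cls (v x) = j) := fun j => hη.trans_le (hπ j)
  have hε : 1 / (4 * ((m : ℝ) * n + 1)) ≤ 1 / 4 := by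
    gcongr
    have : (0 : ℝ) ≤ m * n := by positivity
    linarith
  have : Nontrivial C := by
    by_contra hC
    rw [not_nontrivial_iff_subsingleton] at hC
    have j0 : C := cls 0
    rw [sum_eq_single j0 (fun b _ hb => absurd (Subsingleton.elim _ _) hb)
      (fun h => absurd (mem_univ _) h)] at hsum
    simp only [ind_pos (Subsingleton.elim _ j0), mul_one, Fintype.expect_const, div_one] at hsum
    have e : ∀ x, (v x - a j0) ^ 2 = v x ^ 2 - 2 * a j0 * v x + a j0 ^ 2 := fun x => by ring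
    simp only [e, expect_add_distrib, expect_sub_distrib, ← mul_expect, h0,
      Fintype.expect_const, ← hVdef] at hsum
    nlinarith [sq_nonneg (a j0)]
  let c : C → ℝ := fun j => (𝔼 y, v y * ind (cls (v y) = j)) / 𝔼 y, ind (cls (v y) = j)
  have hc : ∀ h : C → ℝ, 𝔼 x, (v x - c (cls (v x))) * h (cls (v x)) = 0 := by
    intro h
    simp only [sub_mul, expect_sub_distrib]
    rw [cond_mean (fun x => cls (v x)) hπ0 v h, sub_self]
  let ρ : C → ℝ := fun j => (𝔼 y, (v y - c (cls (v y))) ^ 2 * ind (cls (v y) = j)) /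
    𝔼 y, ind (cls (v y) = j)
  have hρ : ∀ h : C → ℝ, 𝔼 x, (v x - c (cls (v x))) ^ 2 * h (cls (v x)) =
      𝔼 x, ρ (cls (v x)) * h (cls (v x)) := fun h =>
    cond_mean (fun x => cls (v x)) hπ0 (fun x => (v x - c (cls (v x))) ^ 2) h
  have hρle : ∑ j, ρ j ≤ 1 / (4 * (m * n + 1)) * V := by
    refine le_trans (sum_le_sum fun j _ => ?_) hsum
    refine div_le_div_of_nonneg_right ?_ (hπ0 j).le
    have h1 := hc (fun i => 2 * (c j - a j) * ind (i = j))
    have h2 : 𝔼 y, ((v y - c (cls (v y))) ^ 2 * ind (cls (v y) = j) +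
        (v y - c (cls (v y))) * (2 * (c j - a j) * ind (cls (v y) = j))) ≤
        𝔼 x, (v x - a j) ^ 2 * ind (cls (v x) = j) := by
      refine expect_le_expect fun x _ => ?_
      by_cases hx : cls (v x) = j
      · rw [ind_pos hx, hx]; nlinarith [sq_nonneg (c j - a j)]
      · rw [ind_neg hx]; simp
    rw [expect_add_distrib, h1, add_zero] at h2
    exact h2
  set lam := 𝔼 y : Fin n → (ι → Bool), (∑ i, v (y i)) * g (fun i => v (y i)) with hlam
  have hlam2 : 11 / 2 * V ≤ lam ^ 2 := hgain (ι → Bool) v h0 hsym hV h4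
  let I := (Fin m × Fin n × C) ⊕ Fin n
  let H : (I → ℝ) → ℝ := fun b => west cls φ (m * n * ∑ j, c j) lam
    (fun p => b (Sum.inl p)) (fun q => b (Sum.inr q))
  obtain ⟨v', hv', hle⟩ := calib (fun z : I × ι → Bool => H (fun i => v (co z i)))
    (west_deg cls hv hn g φ hφ hg hgd _ lam)
  refine ⟨I × ι, inferInstance, inferInstance, m * n * Fintype.card C + 5, v', by omega, hv', ?_⟩
  refine le_trans ?_ hle
  rw [cal_vals (v := fun _ : I => v) (fun _ => hv) H, E_curry (fun y => H (fun i => v (y i)) ^ 2)]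
  have hb := boost_prob cls hn v h0 g φ hφ hg c ρ hc hρ lam hlam
  have hT := E_sq_sum_indep (univ : Finset I) v h0
  have e : ∀ z : I → ι → Bool, (∑ i, v (z i) - H (fun i => v (z i))) ^ 2 =
      (∑ i, v (z i)) ^ 2 - (2 * ((∑ i, v (z i)) * H (fun i => v (z i)))
        - H (fun i => v (z i)) ^ 2) := fun z => by ring
  have hb' : 𝔼 z : I → ι → Bool, (∑ i, v (z i) - H (fun i => v (z i))) ^ 2 = _ := hb
  simp only [e, expect_sub_distrib, ← mul_expect] at hb'
  rw [hT, ← hVdef] at hb'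
  have hcI : ((univ : Finset I).card : ℝ) = m * n * Fintype.card C + n := by
    simp [I, mul_assoc]
  rw [hcI] at hb'
  set PG := 𝔼 y : Fin m × Fin n × C → ι → Bool, Gd cls (fun p => v (y p)) with hPG
  have hqQ : Fintype.card C ≤ Q := by simpa using hQ
  have hPG1 : min η 1 ^ (m * n * Q) ≤ PG := by
    have h1 : 𝔼 y : Fin m × Fin n × C → ι → Bool, ∏ p, ind (cls (v (y p)) = p.2.2) ≤ PG :=
      expect_le_expect fun y _ => Gd_ge cls (fun p => v (y p))
    rw [E_prod univ (fun (p : Fin m × Fin n × C) x => ind (cls (v x) = p.2.2))] at h1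
    refine le_trans ?_ h1
    have hm0 : 0 ≤ min η 1 := le_min hη.le zero_le_one
    calc min η 1 ^ (m * n * Q) ≤ min η 1 ^ (m * (n * Fintype.card C)) := by
          apply pow_le_pow_of_le_one hm0 (min_le_right _ _)
          rw [mul_assoc]; gcongr
      _ = ∏ _p : Fin m × Fin n × C, min η 1 := by simp
      _ ≤ _ := prod_le_prod (fun _ _ => hm0) fun p _ => (min_le_left _ _).trans (hπ _)
  have hgap : V / 4 ≤ lam ^ 2 - 5 * V - m * n * ∑ j, ρ j := by
    have h1 : (m : ℝ) * n * ∑ j, ρ j ≤ m * n * (1 / (4 * (m * n + 1)) * V) := by gcongr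
    have h2 : (m : ℝ) * n * (1 / (4 * (m * n + 1)) * V) ≤ V / 4 := by
      have : (m : ℝ) * n * (1 / (4 * (m * n + 1)) * V) = (m * n / (m * n + 1)) * (V / 4) := by
        field_simp
      rw [this]
      have h3 : (m : ℝ) * n / (m * n + 1) ≤ 1 := by
        rw [div_le_one (by positivity)]; linarith
      nlinarith
    linarith
  have hk0 : 0 ≤ min η 1 ^ (m * n * Q) := pow_nonneg (le_min hη.le zero_le_one) _
  have hmul : min η 1 ^ (m * n * Q) * (V / 4) ≤ PG * (lam ^ 2 - 5 * V - m * n * ∑ j, ρ j) :=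
    mul_le_mul hPG1 hgap (by positivity) (hk0.trans hPG1)
  have hN : (m : ℝ) * n * Fintype.card C + 5 ≤ m * n * Q + 5 := by
    have : (Fintype.card C : ℝ) ≤ Q := by exact_mod_cast hqQ
    gcongr
  have hκ : min η 1 ^ (m * n * Q) / (4 * (m * n * Q + 5)) * (m * n * Fintype.card C + 5) * V ≤
      min η 1 ^ (m * n * Q) * (V / 4) := by
    calc _ ≤ min η 1 ^ (m * n * Q) / (4 * (m * n * Q + 5)) * (m * n * Q + 5) * V := by gcongr
      _ = _ := by field_simp
  push_cast
  nlinarith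

end Crest.Agent.R63
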