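import Crest.Agent.R63.Deg

/-! Splitting the values of a variable of bounded kurtosis into boundedly many classes, each of
probability bounded below, with small total conditional variance. -/

set_option autoImplicit false
set_option linter.unusedSectionVars false
open Finset
open scoped BigOperators

namespace Crest.Agent.R63

/-- indicator -/
noncomputable def ind (p : Prop) : ℝ := by classical exact if p then 1 else 0

lemma ind_pos {p : Prop} (h : p) : ind p = 1 := by simp [ind, h]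
lemma ind_neg {p : Prop} (h : ¬ p) : ind p = 0 := by simp [ind, h]
lemma ind_nonneg (p : Prop) : 0 ≤ ind p := by
  by_cases h : p
  · simp [ind_pos h]
  · simp [ind_neg h]
lemma ind_mono {p q : Prop} (h : p → q) : ind p ≤ ind q := by
  by_cases hp : p
  · rw [ind_pos hp, ind_pos (h hp)]
  · rw [ind_neg hp]; exact ind_nonneg q

lemma sum_ind_eq {α : Type*} (s : Finset α) (a : α) : ∑ t ∈ s, ind (a = t) = ind (a ∈ s) := by
  classical
  by_cases h : a ∈ s
  · rw [sum_eq_single a (fun b _ hb => ind_neg (Ne.symm hb)) (fun h' => absurd h h'),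
      ind_pos rfl, ind_pos h]
  · rw [ind_neg h]
    exact sum_eq_zero fun t ht => ind_neg (by rintro rfl; exact h ht)

lemma classes_norm (b : ℕ) (hb : 2 ≤ b) (X : Type) [Fintype X] [Nonempty X] (u : X → ℝ)
    (h2 : 𝔼 x, u x ^ 2 = 1) (h4 : 𝔼 x, u x ^ 4 ≤ 4) :
    ∃ (C : Finset ℤ) (cls : ℝ → C) (a : C → ℝ), C.card ≤ 2 * b ^ 5 ∧
      (∀ j, 1 / (b : ℝ) ^ 13 ≤ 𝔼 x, ind (cls (u x) = j)) ∧
      ∑ j, (𝔼 x, (u x - a j) ^ 2 * ind (cls (u x) = j)) / (𝔼 x, ind (cls (u x) = j))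
        ≤ 131 / b := by
  classical
  have hb' : (2 : ℝ) ≤ b := by exact_mod_cast hb
  have hb0 : (0 : ℝ) < b := by linarith
  set s : ℝ := (b : ℝ) ^ 3 with hs
  set B : ℝ := (b : ℝ) ^ 2 with hB
  have hs0 : 0 < s := by positivity
  have hB2 : 2 ≤ B := by nlinarith
  set η : ℝ := 1 / (b : ℝ) ^ 13 with hη
  let idx : ℝ → ℤ := fun t => ⌊t * s⌋
  let P : ℤ → ℝ := fun t => 𝔼 x, ind (idx (u x) = t)
  let R : Finset ℤ := Ico (-(b ^ 5 : ℤ)) (b ^ 5)
  let R2 : Finset ℤ := Ico (-(2 * b ^ 3 : ℤ)) (2 * b ^ 3)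
  have hRc : R.card = 2 * b ^ 5 := by
    simp only [R, Int.card_Ico]
    have : ((b : ℤ) ^ 5 - -(b : ℤ) ^ 5) = ((2 * b ^ 5 : ℕ) : ℤ) := by push_cast; ring
    rw [this, Int.toNat_natCast]
  have hR2c : R2.card = 4 * b ^ 3 := by
    simp only [R2, Int.card_Ico]
    have : (2 * (b : ℤ) ^ 3 - -(2 * (b : ℤ) ^ 3)) = ((4 * b ^ 3 : ℕ) : ℤ) := by push_cast; ring
    rw [this, Int.toNat_natCast]
  -- membership in a symmetric integer range
  have hmem : ∀ (c : ℝ) (k : ℤ), (k : ℝ) = c * s → ∀ t : ℝ,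
      (idx t ∈ Ico (-k) k ↔ -c ≤ t ∧ t < c) := by
    intro c k hk t
    simp only [idx, mem_Ico, Int.le_floor, Int.floor_lt, Int.cast_neg, hk]
    constructor
    · rintro ⟨h1, h2⟩
      constructor
      · by_contra h; push Not at h; nlinarith
      · by_contra h; push Not at h; nlinarith
    · rintro ⟨h1, h2⟩
      constructor <;> nlinarith
  have hmemR : ∀ t : ℝ, idx t ∈ R ↔ -B ≤ t ∧ t < B :=
    hmem B _ (by push_cast; rw [hB, hs]; ring)
  have hmemR2 : ∀ t : ℝ, idx t ∈ R2 ↔ -2 ≤ t ∧ t < 2 :=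
    hmem 2 _ (by push_cast; rw [hs])
  obtain ⟨t0, ht0R, ht0⟩ : ∃ t0 ∈ R2, 3 / (16 * s) ≤ P t0 := by
    apply exists_le_of_sum_le
    · rw [← card_pos, hR2c]; positivity
    · rw [sum_const, hR2c, nsmul_eq_mul]
      have e1 : ((4 * b ^ 3 : ℕ) : ℝ) * (3 / (16 * s)) = 𝔼 x, (1 - u x ^ 2 / 4) := by
        rw [expect_sub_distrib, ← expect_div, h2]
        push_cast
        rw [← hs]
        simp only [Fintype.expect_const]
        field_simp; ring
      rw [e1, ← expect_sum_comm]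
      refine expect_le_expect fun x _ => ?_
      rw [sum_ind_eq]
      by_cases h : idx (u x) ∈ R2
      · rw [ind_pos h]; nlinarith [sq_nonneg (u x)]
      · rw [ind_neg h]
        rw [hmemR2] at h
        by_cases h1 : -2 ≤ u x
        · have : 2 ≤ u x := by by_contra h'; exact h ⟨h1, not_le.1 h'⟩
          nlinarith
        · nlinarith
  let Hs : Finset ℤ := R.filter (fun t => η ≤ P t)
  have hη0 : η ≤ 3 / (16 * s) := by
    rw [hη, hs, div_le_div_iff₀ (by positivity) (by positivity)]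
    have : (2 : ℝ) ^ 10 ≤ (b : ℝ) ^ 10 := pow_le_pow_left₀ (by norm_num) hb' 10
    have h3 : (0 : ℝ) < (b : ℝ) ^ 3 := by positivity
    nlinarith
  have ht0a : -2 ≤ (t0 : ℝ) / s ∧ (t0 : ℝ) / s ≤ 2 := by
    obtain ⟨h1, h2⟩ := mem_Ico.1 ht0R
    have h1' : -(2 * s) ≤ (t0 : ℝ) := by rw [hs]; exact_mod_cast h1
    have h2' : (t0 : ℝ) < 2 * s := by rw [hs]; exact_mod_cast h2
    constructor
    · rw [le_div_iff₀ hs0]; linarith
    · rw [div_le_iff₀ hs0]; linarith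
  have ht0H : t0 ∈ Hs := by
    refine mem_filter.2 ⟨?_, hη0.trans ht0⟩
    obtain ⟨h1, h2⟩ := mem_Ico.1 ht0R
    have hbz : (2 : ℤ) ≤ b := by exact_mod_cast hb
    have : 2 * (b : ℤ) ^ 3 ≤ (b : ℤ) ^ 5 := by
      have h3 : (0 : ℤ) ≤ (b : ℤ) ^ 3 := by positivity
      have h5 : (2 : ℤ) ≤ (b : ℤ) ^ 2 := by nlinarith
      calc 2 * (b : ℤ) ^ 3 ≤ (b : ℤ) ^ 2 * (b : ℤ) ^ 3 := by gcongr
        _ = _ := by ring
    exact mem_Ico.2 ⟨by linarith, by linarith⟩
  let cls : ℝ → Hs := fun t => if h : idx t ∈ Hs then ⟨idx t, h⟩ else ⟨t0, ht0H⟩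
  have hcls : ∀ t (j : Hs), idx t = j → cls t = j := by
    intro t j h
    have : idx t ∈ Hs := h ▸ j.2
    simp only [cls, dif_pos this]
    exact Subtype.ext h
  have hπ : ∀ j : Hs, P j ≤ 𝔼 x, ind (cls (u x) = j) := fun j =>
    expect_le_expect fun x _ => ind_mono (hcls _ j)
  have hπη : ∀ j : Hs, η ≤ 𝔼 x, ind (cls (u x) = j) := fun j =>
    (mem_filter.1 j.2).2.trans (hπ j)
  have hηpos : 0 < η := by positivity
  refine ⟨Hs, cls, fun j => (j : ℝ) / s, (card_filter_le _ _).trans hRc.le, hπη, ?_⟩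
  set W : ℝ := 𝔼 x, (u x - (t0 : ℝ) / s) ^ 2 * ind (idx (u x) ∉ Hs) with hW
  have hW0 : 0 ≤ W := expect_nonneg fun x _ => mul_nonneg (sq_nonneg _) (ind_nonneg _)
  have hWle : W ≤ 16 / B ^ 2 + 4 * B ^ 2 * (2 * (b : ℝ) ^ 5 * η) := by
    have h1 : W ≤ 𝔼 x, (4 / B ^ 2 * u x ^ 4 + 4 * B ^ 2 * ∑ t ∈ R \ Hs, ind (idx (u x) = t)) := by
      refine expect_le_expect fun x _ => ?_
      rw [sum_ind_eq]
      have p1 : 0 ≤ 4 / B ^ 2 * u x ^ 4 := by positivity
      have p2 : 0 ≤ 4 * B ^ 2 * ind (idx (u x) ∈ R \ Hs) :=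
        mul_nonneg (by positivity) (ind_nonneg _)
      by_cases hH : idx (u x) ∈ Hs
      · rw [ind_neg (not_not.2 hH)]; linarith
      · rw [ind_pos hH, mul_one]
        by_cases hR : idx (u x) ∈ R
        · rw [ind_pos (mem_sdiff.2 ⟨hR, hH⟩)]
          obtain ⟨q1, q2⟩ := (hmemR _).1 hR
          have : (u x - t0 / s) ^ 2 ≤ (2 * B) ^ 2 := by
            apply sq_le_sq' <;> linarith [ht0a.1, ht0a.2]
          nlinarith
        · have hu : B ^ 2 ≤ u x ^ 2 := by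
            rw [hmemR] at hR
            by_cases h1 : -B ≤ u x
            · have : B ≤ u x := by by_contra h'; exact hR ⟨h1, not_le.1 h'⟩
              nlinarith
            · nlinarith
          have ha : (t0 / s : ℝ) ^ 2 ≤ u x ^ 2 := by nlinarith [ht0a.1, ht0a.2]
          have q : (u x - t0 / s) ^ 2 ≤ 4 * u x ^ 2 := by
            nlinarith [sq_nonneg (u x + t0 / s)]
          have q2 : 4 * u x ^ 2 ≤ 4 / B ^ 2 * u x ^ 4 := by
            rw [div_mul_eq_mul_div, le_div_iff₀ (by positivity)]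
            nlinarith [sq_nonneg (u x)]
          linarith
    rw [expect_add_distrib, ← mul_expect, ← mul_expect, expect_sum_comm] at h1
    have h3 : ∑ t ∈ R \ Hs, P t ≤ 2 * (b : ℝ) ^ 5 * η := by
      calc ∑ t ∈ R \ Hs, P t ≤ ∑ _t ∈ R \ Hs, η := by
            refine sum_le_sum fun t ht => ?_
            obtain ⟨a1, a2⟩ := mem_sdiff.1 ht
            by_contra h
            exact a2 (mem_filter.2 ⟨a1, (not_le.1 h).le⟩)
        _ = (R \ Hs).card * η := by rw [sum_const, nsmul_eq_mul]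
        _ ≤ 2 * (b : ℝ) ^ 5 * η := by
            gcongr
            have : (R \ Hs).card ≤ 2 * b ^ 5 := (card_le_card sdiff_subset).trans hRc.le
            exact_mod_cast this
    have h5 : 4 / B ^ 2 * 𝔼 x, u x ^ 4 ≤ 16 / B ^ 2 := by
      calc 4 / B ^ 2 * 𝔼 x, u x ^ 4 ≤ 4 / B ^ 2 * 4 := by gcongr
        _ = 16 / B ^ 2 := by ring
    have h6 : 4 * B ^ 2 * ∑ t ∈ R \ Hs, P t ≤ 4 * B ^ 2 * (2 * (b : ℝ) ^ 5 * η) := by gcongr
    exact h1.trans (add_le_add h5 h6)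
  have hterm : ∀ j : Hs, (𝔼 x, (u x - (j : ℝ) / s) ^ 2 * ind (cls (u x) = j)) /
      (𝔼 x, ind (cls (u x) = j)) ≤
        1 / s ^ 2 + ind ((⟨t0, ht0H⟩ : Hs) = j) * (W * (16 * s / 3)) := by
    intro j
    have hπ0 : 0 < 𝔼 x, ind (cls (u x) = j) := hηpos.trans_le (hπη j)
    rw [div_le_iff₀ hπ0]
    have h1 : 𝔼 x, (u x - (j : ℝ) / s) ^ 2 * ind (cls (u x) = j) ≤
        𝔼 x, (1 / s ^ 2 * ind (cls (u x) = j) + ind ((⟨t0, ht0H⟩ : Hs) = j) *
          ((u x - (t0 : ℝ) / s) ^ 2 * ind (idx (u x) ∉ Hs))) := by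
      refine expect_le_expect fun x _ => ?_
      have p1 : 0 ≤ 1 / s ^ 2 * ind (cls (u x) = j) := mul_nonneg (by positivity) (ind_nonneg _)
      have p2 : 0 ≤ ind ((⟨t0, ht0H⟩ : Hs) = j) *
          ((u x - (t0 : ℝ) / s) ^ 2 * ind (idx (u x) ∉ Hs)) :=
        mul_nonneg (ind_nonneg _) (mul_nonneg (sq_nonneg _) (ind_nonneg _))
      by_cases hj : cls (u x) = j
      · by_cases hH : idx (u x) ∈ Hs
        · have e : idx (u x) = j := by
            rw [← hj]; simp only [cls, dif_pos hH]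
          have f1 : ((j : ℤ) : ℝ) ≤ u x * s := by rw [← e]; exact Int.floor_le _
          have f2 : u x * s < ((j : ℤ) : ℝ) + 1 := by rw [← e]; exact Int.lt_floor_add_one _
          have f3 : (u x - (j : ℝ) / s) ^ 2 ≤ 1 / s ^ 2 := by
            have : u x - (j : ℝ) / s = (u x * s - j) / s := by field_simp
            rw [this, div_pow]
            gcongr
            nlinarith
          rw [ind_pos hj] at *
          nlinarith
        · have e : (⟨t0, ht0H⟩ : Hs) = j := by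
            rw [← hj]; simp only [cls, dif_neg hH]
          rw [ind_pos e, ind_pos hH, ind_pos hj, ← e]
          have : 0 ≤ 1 / s ^ 2 := by positivity
          simp only
          nlinarith
      · rw [ind_neg hj] at *
        nlinarith
    rw [expect_add_distrib, ← mul_expect, ← mul_expect, ← hW] at h1
    refine h1.trans ?_
    rw [add_mul]
    refine add_le_add le_rfl ?_
    by_cases e : (⟨t0, ht0H⟩ : Hs) = j
    · rw [ind_pos e, one_mul, one_mul]
      have h3 : 3 / (16 * s) ≤ 𝔼 x, ind (cls (u x) = j) := ht0.trans (by rw [← e]; exact hπ ⟨t0, ht0H⟩)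
      calc W = W * (16 * s / 3) * (3 / (16 * s)) := by field_simp
        _ ≤ _ := by gcongr
    · simp [ind_neg e]
  refine (sum_le_sum fun j _ => hterm j).trans ?_
  rw [sum_add_distrib, ← sum_mul, sum_ind_eq, ind_pos (mem_univ _), sum_const, nsmul_eq_mul,
    one_mul]
  have hc : ((univ : Finset Hs).card : ℝ) ≤ 2 * (b : ℝ) ^ 5 := by
    rw [card_univ, Fintype.card_coe]
    exact_mod_cast (card_filter_le _ _).trans hRc.le
  calc ((univ : Finset Hs).card : ℝ) * (1 / s ^ 2) + W * (16 * s / 3)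
      ≤ 2 * (b : ℝ) ^ 5 * (1 / s ^ 2) +
        (16 / B ^ 2 + 4 * B ^ 2 * (2 * (b : ℝ) ^ 5 * η)) * (16 * s / 3) := by gcongr
    _ = 130 / (b : ℝ) := by rw [hs, hB, hη]; field_simp; ring
    _ ≤ 131 / (b : ℝ) := by gcongr; norm_num

lemma classes (ε : ℝ) (hε : 0 < ε) : ∃ (Q : ℕ) (η : ℝ), 0 < η ∧
    ∀ (X : Type) [Fintype X] [Nonempty X] (v : X → ℝ), 0 < 𝔼 x, v x ^ 2 →
      𝔼 x, v x ^ 4 ≤ 4 * (𝔼 x, v x ^ 2) ^ 2 →
      ∃ (C : Finset ℤ) (cls : ℝ → C) (a : C → ℝ), C.card ≤ Q ∧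
        (∀ j, η ≤ 𝔼 x, ind (cls (v x) = j)) ∧
        ∑ j, (𝔼 x, (v x - a j) ^ 2 * ind (cls (v x) = j)) / (𝔼 x, ind (cls (v x) = j))
          ≤ ε * 𝔼 x, v x ^ 2 := by
  obtain ⟨b, hb⟩ := exists_nat_ge (max 2 (131 / ε))
  have hb2 : (2 : ℝ) ≤ b := (le_max_left _ _).trans hb
  have hb3 : 131 / (b : ℝ) ≤ ε := by
    have := (le_max_right _ _).trans hb
    rw [div_le_iff₀ hε] at this
    rw [div_le_iff₀ (by linarith)]
    linarith
  refine ⟨2 * b ^ 5, 1 / (b : ℝ) ^ 13, by positivity, fun X _ _ v hV h4 => ?_⟩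
  set V := 𝔼 x, v x ^ 2 with hVdef
  set σ := Real.sqrt V with hσ
  have hσ0 : 0 < σ := Real.sqrt_pos.2 hV
  have hσ2 : σ ^ 2 = V := Real.sq_sqrt hV.le
  obtain ⟨C, cls, a, h1, h2, h3⟩ := classes_norm b (by exact_mod_cast hb2) X (fun x => v x / σ)
    (by simp only [div_pow]; rw [← expect_div, hσ2]; field_simp; rfl)
    (by
      simp only [div_pow]
      rw [← expect_div, div_le_iff₀ (by positivity)]
      have : σ ^ 4 = V ^ 2 := by rw [← hσ2]; ring
      rw [this]; exact h4)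
  refine ⟨C, fun t => cls (t / σ), fun j => σ * a j, h1, h2, ?_⟩
  have e : ∀ j, (𝔼 x, (v x - σ * a j) ^ 2 * ind (cls (v x / σ) = j)) =
      V * 𝔼 x, (v x / σ - a j) ^ 2 * ind (cls (v x / σ) = j) := by
    intro j
    rw [mul_expect]
    refine expect_congr rfl fun x _ => ?_
    rw [← hσ2]; field_simp
  simp only [e, mul_div_assoc, ← mul_sum]
  rw [mul_comm ε]
  exact mul_le_mul_of_nonneg_left (h3.trans hb3) hV.le

end Crest.Agent.R63
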