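import Mathlib

/-! Degree filtration on the Boolean cube (span of juntas) and elementary finite expectations. -/

set_option autoImplicit false
open Finset
open scoped BigOperators

namespace Crest.Agent.R63

/-- sign of a bit -/
noncomputable def sg (b : Bool) : ℝ := if b then 1 else -1

lemma sg_not (b : Bool) : sg (!b) = - sg b := by cases b <;> simp [sg]

lemma sg_sq (b : Bool) : sg b ^ 2 = 1 := by cases b <;> simp [sg]

/-- functions of degree at most `k`: the span of the `k`-juntas -/
def Deg (ι : Type) (k : ℕ) : Submodule ℝ ((ι → Bool) → ℝ) :=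
  Submodule.span ℝ {f | ∃ J : Finset ι, J.card ≤ k ∧ ∀ x y, (∀ i ∈ J, x i = y i) → f x = f y}

section deg
variable {ι : Type}

lemma Deg.mono {a b : ℕ} (h : a ≤ b) {f : (ι → Bool) → ℝ} (hf : f ∈ Deg ι a) : f ∈ Deg ι b := by
  refine Submodule.span_mono ?_ hf
  rintro g ⟨J, hJ, hg⟩
  exact ⟨J, hJ.trans h, hg⟩

lemma Deg.const (k : ℕ) (c : ℝ) : (fun _ : ι → Bool => c) ∈ Deg ι k :=
  Submodule.subset_span ⟨∅, by simp, fun _ _ _ => rfl⟩

lemma Deg.coord (i : ι) (h : Bool → ℝ) : (fun x : ι → Bool => h (x i)) ∈ Deg ι 1 :=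
  Submodule.subset_span ⟨{i}, by simp, fun x y hxy => by simp only [hxy i (by simp)]⟩

lemma Deg.add {k : ℕ} {f g : (ι → Bool) → ℝ} (hf : f ∈ Deg ι k) (hg : g ∈ Deg ι k) :
    (fun x => f x + g x) ∈ Deg ι k := (Deg ι k).add_mem hf hg

lemma Deg.sub {k : ℕ} {f g : (ι → Bool) → ℝ} (hf : f ∈ Deg ι k) (hg : g ∈ Deg ι k) :
    (fun x => f x - g x) ∈ Deg ι k := (Deg ι k).sub_mem hf hg

lemma Deg.smul {k : ℕ} {f : (ι → Bool) → ℝ} (c : ℝ) (hf : f ∈ Deg ι k) :
    (fun x => c * f x) ∈ Deg ι k := (Deg ι k).smul_mem c hf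

lemma Deg.smul' {k : ℕ} {f : (ι → Bool) → ℝ} (c : ℝ) (hf : f ∈ Deg ι k) :
    (fun x => f x * c) ∈ Deg ι k := by
  have := Deg.smul c hf
  simpa only [mul_comm] using this

lemma Deg.sum {k : ℕ} {α : Type*} (s : Finset α) {f : α → (ι → Bool) → ℝ}
    (hf : ∀ a ∈ s, f a ∈ Deg ι k) : (fun x => ∑ a ∈ s, f a x) ∈ Deg ι k := by
  have := (Deg ι k).sum_mem hf
  convert this using 1
  ext x; simp

lemma Deg.mul {a b : ℕ} {f g : (ι → Bool) → ℝ} (hf : f ∈ Deg ι a) (hg : g ∈ Deg ι b) :
    (fun x => f x * g x) ∈ Deg ι (a + b) := by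
  classical
  induction hf using Submodule.span_induction with
  | mem f hf =>
    induction hg using Submodule.span_induction with
    | mem g hg =>
      obtain ⟨J, hJ, hf⟩ := hf
      obtain ⟨K, hK, hg⟩ := hg
      refine Submodule.subset_span ⟨J ∪ K, (card_union_le _ _).trans (add_le_add hJ hK), ?_⟩
      intro x y hxy
      show f x * g x = f y * g y
      rw [hf x y (fun i hi => hxy i (mem_union_left _ hi)),
        hg x y (fun i hi => hxy i (mem_union_right _ hi))]
    | zero => simpa using Deg.const (ι := ι) (a + b) 0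
    | add g g' _ _ h1 h2 => simpa [mul_add] using Deg.add h1 h2
    | smul c g _ h1 =>
      have := Deg.smul c h1
      convert this using 2
      simp; ring
  | zero => simpa using Deg.const (ι := ι) (a + b) 0
  | add f f' _ _ h1 h2 => simpa [add_mul] using Deg.add h1 h2
  | smul c f _ h1 =>
    have := Deg.smul c h1
    convert this using 2
    simp; ring

lemma Deg.prod {α : Type*} (s : Finset α) {f : α → (ι → Bool) → ℝ} {d : α → ℕ}
    (hf : ∀ a ∈ s, f a ∈ Deg ι (d a)) : (fun x => ∏ a ∈ s, f a x) ∈ Deg ι (∑ a ∈ s, d a) := by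
  classical
  induction s using Finset.induction_on with
  | empty => simpa using Deg.const (ι := ι) 0 1
  | insert a s ha ih =>
    simp only [prod_insert ha, sum_insert ha]
    exact Deg.mul (hf a (mem_insert_self _ _)) (ih fun b hb => hf b (mem_insert_of_mem hb))

lemma Deg.pow {a : ℕ} {f : (ι → Bool) → ℝ} (hf : f ∈ Deg ι a) (k : ℕ) :
    (fun x => f x ^ k) ∈ Deg ι (k * a) := by
  have := Deg.prod (range k) (f := fun _ => f) (d := fun _ => a) (fun _ _ => hf)
  simpa using this

lemma Deg.comp {κ : Type} {k : ℕ} (φ : κ → ι) (ψ : Bool → Bool) {f : (κ → Bool) → ℝ}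
    (hf : f ∈ Deg κ k) : (fun z : ι → Bool => f (fun t => ψ (z (φ t)))) ∈ Deg ι k := by
  classical
  induction hf using Submodule.span_induction with
  | mem f hf =>
    obtain ⟨J, hJ, hf⟩ := hf
    refine Submodule.subset_span ⟨J.image φ, card_image_le.trans hJ, ?_⟩
    intro x y hxy
    exact hf _ _ fun i hi => by rw [hxy _ (mem_image_of_mem φ hi)]
  | zero => simpa using Deg.const (ι := ι) k 0
  | add f f' _ _ h1 h2 => exact Deg.add h1 h2
  | smul c f _ h1 => exact Deg.smul c h1

lemma Deg.fourier [Fintype ι] [DecidableEq ι] {k : ℕ} {f : (ι → Bool) → ℝ} (hf : f ∈ Deg ι k)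
    (S : Finset ι) (hS : k < S.card) : ∑ x, f x * ∏ i ∈ S, sg (x i) = 0 := by
  induction hf using Submodule.span_induction with
  | mem f hf =>
    obtain ⟨J, hJ, hf⟩ := hf
    obtain ⟨a, haS, haJ⟩ : ∃ a ∈ S, a ∉ J := by
      by_contra h
      push Not at h
      exact absurd (card_le_card h) (by omega)
    have hinv : Function.Involutive (fun x : ι → Bool => Function.update x a (!x a)) := by
      intro x; ext i
      by_cases hi : i = a
      · subst hi; simp
      · simp [Function.update_of_ne hi]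
    let e : Equiv.Perm (ι → Bool) := Function.Involutive.toPerm _ hinv
    have he : ∀ x, e x = Function.update x a (!x a) := fun _ => rfl
    have h1 := Equiv.sum_comp e (fun x => f x * ∏ i ∈ S, sg (x i))
    have h2 : ∀ x : ι → Bool, f (e x) * ∏ i ∈ S, sg (e x i)
        = - (f x * ∏ i ∈ S, sg (x i)) := by
      intro x
      have e1 : f (e x) = f x := by
        apply hf; intro i hi
        have : i ≠ a := fun h => haJ (h ▸ hi)
        simp [he, Function.update_of_ne this]
      rw [e1, ← mul_prod_erase S _ haS, ← mul_prod_erase S (fun i => sg (x i)) haS]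
      have e2 : ∏ i ∈ S.erase a, sg (e x i) = ∏ i ∈ S.erase a, sg (x i) := by
        refine prod_congr rfl fun i hi => ?_
        simp [he, Function.update_of_ne (ne_of_mem_erase hi)]
      have e3 : sg (e x a) = - sg (x a) := by
        simp [he, sg_not]
      rw [e2, e3]; ring
    simp only [h2, sum_neg_distrib] at h1
    linarith
  | zero => simp
  | add f f' _ _ h1 h2 => simp [add_mul, sum_add_distrib, h1, h2]
  | smul c f _ h1 => simp [mul_assoc, ← mul_sum, h1]

end deg

section prob
variable {I X : Type} [Fintype I] [DecidableEq I] [Fintype X] [Nonempty X]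

lemma E_update (p : I) (F : (I → X) → ℝ) :
    𝔼 z, F z = 𝔼 z, 𝔼 a, F (Function.update z p a) := by
  have hinv : Function.Involutive
      (fun w : (I → X) × X => (Function.update w.1 p w.2, w.1 p)) := by
    rintro ⟨z, a⟩; simp
  have h1 := Fintype.expect_equiv (Function.Involutive.toPerm _ hinv) (fun w => F (Function.update w.1 p w.2))
    (fun w => F w.1) (fun w => rfl)
  rw [← Finset.expect_product' univ univ (fun z a => F (Function.update z p a)), univ_product_univ,
    h1, ← univ_product_univ, Finset.expect_product' univ univ (fun z (_ : X) => F z)]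
  simp

/-- replace `f (z p)` by `f' (z p)` when they have the same conditional mean given `c` and the
other factor only sees the class of coordinate `p` -/
lemma cond_swap {C : Type*} (p : I) (f f' : X → ℝ) (c : X → C)
    (hf : ∀ h : C → ℝ, 𝔼 a, f a * h (c a) = 𝔼 a, f' a * h (c a)) (H : (I → X) → ℝ)
    (hH : ∀ z a a', c a = c a' → H (Function.update z p a) = H (Function.update z p a')) :
    𝔼 z, f (z p) * H z = 𝔼 z, f' (z p) * H z := by
  classical
  rw [E_update p, E_update p (fun z => f' (z p) * H z)]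
  refine expect_congr rfl fun z _ => ?_
  simp only [Function.update_self]
  let h : C → ℝ := fun t => if ht : ∃ a, c a = t then H (Function.update z p ht.choose) else 0
  have hh : ∀ a, H (Function.update z p a) = h (c a) := by
    intro a
    have ht : ∃ a', c a' = c a := ⟨a, rfl⟩
    simp only [h, dif_pos ht]
    exact hH z _ _ ht.choose_spec.symm
  simp only [hh]
  exact hf h

lemma indep_coord (p : I) (f : X → ℝ) (H : (I → X) → ℝ)
    (hH : ∀ z a, H (Function.update z p a) = H z) :
    𝔼 z, f (z p) * H z = (𝔼 a, f a) * 𝔼 z, H z := by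
  have := cond_swap p f (fun _ => 𝔼 a, f a) (fun _ => ()) (by
    intro h; rw [← expect_mul]; simp) H (fun z a a' _ => by rw [hH, hH])
  rw [this, mul_expect]

lemma E_coord (p : I) (f : X → ℝ) : 𝔼 z : I → X, f (z p) = 𝔼 a, f a := by
  have := indep_coord p f (fun _ => 1) (fun _ _ => rfl)
  simpa using this

lemma E_prod (s : Finset I) (f : I → X → ℝ) :
    𝔼 z : I → X, ∏ p ∈ s, f p (z p) = ∏ p ∈ s, 𝔼 a, f p a := by
  induction s using Finset.induction_on with
  | empty => simp
  | insert p s hp ih =>
    simp only [prod_insert hp]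
    rw [indep_coord p (f p), ih]
    intro z a
    refine prod_congr rfl fun i hi => ?_
    rw [Function.update_of_ne (by rintro rfl; exact hp hi)]

/-- second moment of a sum of conditionally centred coordinates, weighted by a function of the
classes -/
lemma E_sq_sum {C : Type*} (s : Finset I) (δ : X → ℝ) (c : X → C)
    (hδ : ∀ h : C → ℝ, 𝔼 a, δ a * h (c a) = 0) (G : (I → X) → ℝ)
    (hG : ∀ p ∈ s, ∀ z a a', c a = c a' →
      G (Function.update z p a) = G (Function.update z p a')) :
    𝔼 z, G z * (∑ p ∈ s, δ (z p)) ^ 2 = ∑ p ∈ s, 𝔼 z, δ (z p) ^ 2 * G z := by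
  have e : ∀ z : I → X, G z * (∑ p ∈ s, δ (z p)) ^ 2
      = ∑ p ∈ s, ∑ p' ∈ s, δ (z p) * (δ (z p') * G z) := by
    intro z
    rw [sq, sum_mul_sum, mul_sum]
    refine sum_congr rfl fun p _ => ?_
    rw [mul_sum]
    exact sum_congr rfl fun p' _ => by ring
  simp only [e, expect_sum_comm]
  refine sum_congr rfl fun p hp => ?_
  rw [sum_eq_single p]
  · exact expect_congr rfl fun z _ => by ring
  · intro p' _ hne
    have := cond_swap p δ (fun _ => 0) c (by intro h; simp [hδ h])
      (fun z => δ (z p') * G z) (by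
        intro z a a' haa
        simp only [Function.update_of_ne hne, hG p hp z a a' haa])
    simpa using this
  · intro h; exact absurd hp h

lemma E_sq_sum_indep (s : Finset I) (δ : X → ℝ) (hδ : 𝔼 a, δ a = 0) :
    𝔼 z : I → X, (∑ p ∈ s, δ (z p)) ^ 2 = s.card * 𝔼 a, δ a ^ 2 := by
  have := E_sq_sum s δ (fun _ => ()) (by intro h; rw [← expect_mul, hδ, zero_mul]) (fun _ => 1)
    (fun _ _ _ _ _ _ => rfl)
  simp only [one_mul, mul_one] at this
  rw [this, sum_congr rfl (fun p _ => E_coord p (fun a => δ a ^ 2))]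
  simp

lemma E_sum_split {P Q : Type} [Fintype P] [DecidableEq P] [Fintype Q] [DecidableEq Q]
    (A : (P → X) → ℝ) (B : (Q → X) → ℝ) :
    𝔼 z : P ⊕ Q → X, A (fun p => z (Sum.inl p)) * B (fun q => z (Sum.inr q))
      = (𝔼 y, A y) * 𝔼 x, B x := by
  rw [Fintype.expect_equiv (Equiv.sumArrowEquivProdArrow P Q X)
    (fun z => A (fun p => z (Sum.inl p)) * B (fun q => z (Sum.inr q))) (fun w => A w.1 * B w.2)
    (fun z => rfl), ← univ_product_univ,
    Finset.expect_product' univ univ (fun y x => A y * B x), expect_mul_expect]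

end prob

end Crest.Agent.R63
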