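import Crest.Agent.R63.Classes

/-! Hidden fair bits (determinants of class indicator matrices) and the rounding function. -/

set_option autoImplicit false
set_option linter.unusedSectionVars false
open Finset
open scoped BigOperators

namespace Crest.Agent.R63

section hid
variable {C : Type} [Fintype C] [DecidableEq C] (cls : ℝ → C)

/-- determinant of the class indicator matrix of a block -/
noncomputable def hid (b : C → ℝ) : ℝ := Matrix.det (Matrix.of fun i j => ind (cls (b i) = j))

lemma hid_cases (b : C → ℝ) :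
    (Function.Bijective (fun i => cls (b i)) ∧ hid cls b ^ 2 = 1) ∨ hid cls b = 0 := by
  by_cases h : Function.Injective (fun i => cls (b i))
  · left
    have hb := Finite.injective_iff_bijective.1 h
    refine ⟨hb, ?_⟩
    let σ : Equiv.Perm C := Equiv.ofBijective _ hb
    have : (Matrix.of fun i j => ind (cls (b i) = j)) = (1 : Matrix C C ℝ).submatrix σ id := by
      ext i j
      simp only [Matrix.of_apply, Matrix.submatrix_apply, id, Matrix.one_apply]
      by_cases e : cls (b i) = j
      · rw [ind_pos e, if_pos (by exact e)]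
      · rw [ind_neg e, if_neg (by exact e)]
    rw [hid, this, Matrix.det_permute, Matrix.det_one, mul_one]
    rcases Int.units_eq_one_or (Equiv.Perm.sign σ) with e | e <;> simp [e]
  · right
    simp only [Function.Injective, not_forall] at h
    obtain ⟨i, i', h1, h2⟩ := h
    refine Matrix.det_zero_of_row_eq h2 ?_
    ext j
    simp only [Matrix.of_apply, h1]

lemma hid_swap (b : C → ℝ) {i0 i1 : C} (h : i0 ≠ i1) :
    hid cls (fun i => b (Equiv.swap i0 i1 i)) = - hid cls b := by
  have : (Matrix.of fun i j => ind (cls (b (Equiv.swap i0 i1 i)) = j)) =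
      (Matrix.of fun i j => ind (cls (b i) = j)).submatrix (Equiv.swap i0 i1) id := rfl
  rw [hid, this, Matrix.det_permute, Equiv.Perm.sign_swap h]
  simp [hid]

lemma hid_id (b : C → ℝ) (h : ∀ i, cls (b i) = i) : hid cls b = 1 := by
  have : (Matrix.of fun i j => ind (cls (b i) = j)) = (1 : Matrix C C ℝ) := by
    ext i j
    simp only [Matrix.of_apply, Matrix.one_apply, h]
    by_cases e : i = j
    · rw [ind_pos e, if_pos e]
    · rw [ind_neg e, if_neg e]
  rw [hid, this, Matrix.det_one]

lemma hid_congr {b b' : C → ℝ} (h : ∀ i, cls (b i) = cls (b' i)) : hid cls b = hid cls b' := by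
  simp only [hid, h]

lemma hid_deg {ι : Type} {D : ℕ} (f : C → (ι → Bool) → ℝ)
    (hf : ∀ i (h : ℝ → ℝ), (fun z => h (f i z)) ∈ Deg ι D) :
    (fun z => hid cls (fun i => f i z)) ∈ Deg ι ((Fintype.card C - 1) * D) := by
  let j0 : C := cls 0
  have e : ∀ z, hid cls (fun i => f i z) = ∑ σ : Equiv.Perm C, ((Equiv.Perm.sign σ : ℤ) : ℝ) *
      ∏ j ∈ univ.erase j0, ind (cls (f (σ j) z) = j) := by
    intro z
    have h1 := Matrix.det_updateCol_sum (Matrix.of fun i j => ind (cls (f i z) = j)) j0
      (fun _ => (1 : ℝ))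
    rw [one_smul] at h1
    rw [hid, ← h1, Matrix.det_apply']
    refine sum_congr rfl fun σ _ => ?_
    congr 1
    rw [← mul_prod_erase univ _ (mem_univ j0), Matrix.updateCol_self]
    simp only [one_smul, Matrix.of_apply]
    rw [sum_ind_eq, ind_pos (mem_univ _), one_mul]
    refine prod_congr rfl fun j hj => ?_
    rw [Matrix.updateCol_ne (ne_of_mem_erase hj), Matrix.of_apply]
  simp only [e]
  refine Deg.sum _ fun σ _ => Deg.smul _ ?_
  have := Deg.prod (ι := ι) (univ.erase j0) (d := fun _ => D)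
    (f := fun j z => ind (cls (f (σ j) z) = j))
    (fun j _ => hf (σ j) (fun t => ind (cls t = j)))
  simpa [card_erase_of_mem] using this

variable {m n : ℕ}

/-- selector bits -/
noncomputable def Usel (a : Fin m × Fin n × C → ℝ) (j : Fin m) : ℝ :=
  ∏ k, hid cls (fun i => a (j, k, i))

/-- indicator that all blocks are good -/
noncomputable def Gd (a : Fin m × Fin n × C → ℝ) : ℝ := ∏ j, Usel cls a j ^ 2

/-- monomials in the selector bits -/
noncomputable def Mon (t : Finset (Fin m)) (a : Fin m × Fin n × C → ℝ) : ℝ :=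
  (∏ j ∈ t, Usel cls a j) * ∏ j ∈ univ \ t, Usel cls a j ^ 2

/-- the rounded function -/
noncomputable def Phi (φ : (Fin m → Bool) → ℝ) (a : Fin m × Fin n × C → ℝ) : ℝ :=
  ∑ ε, φ ε * ∏ j, ((sg (ε j) * Usel cls a j + Usel cls a j ^ 2) / 2)

/-- Fourier coefficients of the selection pattern -/
noncomputable def coef (φ : (Fin m → Bool) → ℝ) (t : Finset (Fin m)) : ℝ :=
  (∑ ε, φ ε * ∏ j ∈ t, sg (ε j)) / 2 ^ m

lemma Phi_eq (φ : (Fin m → Bool) → ℝ) (a : Fin m × Fin n × C → ℝ) :
    Phi cls φ a = ∑ t ∈ (univ : Finset (Fin m)).powerset, Mon cls t a * coef φ t := by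
  simp only [Phi, coef, Mon, prod_div_distrib, prod_add, prod_mul_distrib, sum_div, mul_sum,
    prod_const, card_univ, Fintype.card_fin]
  rw [sum_comm]
  refine sum_congr rfl fun t _ => sum_congr rfl fun ε _ => by ring

lemma Mon_empty (a : Fin m × Fin n × C → ℝ) : Mon cls ∅ a = Gd cls a := by
  simp [Mon, Gd]

lemma Gd_cases (φ : (Fin m → Bool) → ℝ) (hφ : ∀ ε, φ ε = 1 ∨ φ ε = -1)
    (a : Fin m × Fin n × C → ℝ) :
    (Gd cls a = 0 ∧ Phi cls φ a = 0) ∨ (Gd cls a = 1 ∧ (Phi cls φ a = 1 ∨ Phi cls φ a = -1) ∧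
      ∀ j k, Function.Bijective (fun i => cls (a (j, k, i)))) := by
  by_cases h : ∃ j k, hid cls (fun i => a (j, k, i)) = 0
  · left
    obtain ⟨j, k, h⟩ := h
    have hU : Usel cls a j = 0 := prod_eq_zero (mem_univ k) h
    refine ⟨prod_eq_zero (mem_univ j) (by simp [hU]), sum_eq_zero fun ε _ => ?_⟩
    rw [prod_eq_zero (mem_univ j) (by simp [hU]), mul_zero]
  · right
    push Not at h
    have h1 : ∀ j k, Function.Bijective (fun i => cls (a (j, k, i))) ∧
        hid cls (fun i => a (j, k, i)) ^ 2 = 1 := fun j k =>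
      (hid_cases cls (fun i => a (j, k, i))).resolve_right (h j k)
    have hU : ∀ j, Usel cls a j ^ 2 = 1 := by
      intro j
      rw [Usel, ← prod_pow]
      exact prod_eq_one fun k _ => (h1 j k).2
    have hU' : ∀ j, ∃ b, Usel cls a j = sg b := by
      intro j
      rcases sq_eq_one_iff.1 (hU j) with e | e
      · exact ⟨true, by simp [sg, e]⟩
      · exact ⟨false, by simp [sg, e]⟩
    choose β hβ using hU'
    refine ⟨prod_eq_one fun j _ => hU j, ?_, fun j k => (h1 j k).1⟩
    have : Phi cls φ a = φ β := by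
      rw [Phi, sum_eq_single β]
      · rw [prod_eq_one, mul_one]
        intro j _
        rw [hβ, ← sq, sg_sq]; norm_num
      · intro ε _ hε
        obtain ⟨j, hj⟩ := Function.ne_iff.1 hε
        rw [prod_eq_zero (mem_univ j), mul_zero]
        rw [hβ, sg_sq]
        revert hj
        cases ε j <;> cases β j <;> simp [sg]
      · intro h; exact absurd (mem_univ _) h
    rw [this]; exact hφ β

lemma Usel_congr {a a' : Fin m × Fin n × C → ℝ} (h : ∀ p, cls (a p) = cls (a' p)) (j : Fin m) :
    Usel cls a j = Usel cls a' j :=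
  prod_congr rfl fun _ _ => hid_congr cls fun _ => h _

lemma Gd_congr {a a' : Fin m × Fin n × C → ℝ} (h : ∀ p, cls (a p) = cls (a' p)) :
    Gd cls a = Gd cls a' := by simp only [Gd, Usel_congr cls h]

lemma Phi_congr (φ : (Fin m → Bool) → ℝ) {a a' : Fin m × Fin n × C → ℝ}
    (h : ∀ p, cls (a p) = cls (a' p)) : Phi cls φ a = Phi cls φ a' := by
  simp only [Phi, Usel_congr cls h]

lemma Gd_ge (a : Fin m × Fin n × C → ℝ) : ∏ p, ind (cls (a p) = p.2.2) ≤ Gd cls a := by
  by_cases h : ∀ p, cls (a p) = p.2.2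
  · rw [prod_eq_one fun p _ => ind_pos (h p)]
    apply le_of_eq; symm
    refine prod_eq_one fun j _ => ?_
    rw [Usel, prod_eq_one fun k _ => hid_id cls _ fun i => h (j, k, i), one_pow]
  · push Not at h
    obtain ⟨p, hp⟩ := h
    rw [prod_eq_zero (mem_univ p) (ind_neg hp)]
    exact prod_nonneg fun j _ => sq_nonneg _

lemma sum_of_bij {a : Fin m × Fin n × C → ℝ}
    (h : ∀ j k, Function.Bijective (fun i => cls (a (j, k, i)))) (F : C → ℝ) :
    ∑ p, F (cls (a p)) = m * n * ∑ i, F i := by
  simp only [Fintype.sum_prod_type]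
  have : ∀ j k, ∑ i, F (cls (a (j, k, i))) = ∑ i, F i := fun j k =>
    (h j k).sum_comp F
  simp [this, mul_assoc]

lemma E_Mon {X : Type} [Fintype X] [Nonempty X] [Nontrivial C] (hn : 0 < n) (v : X → ℝ)
    {t : Finset (Fin m)} (ht : t ≠ ∅) :
    𝔼 y : Fin m × Fin n × C → X, Mon cls t (fun p => v (y p)) = 0 := by
  obtain ⟨j0, hj0⟩ := nonempty_iff_ne_empty.2 ht
  obtain ⟨i0, i1, hi⟩ := exists_pair_ne C
  let k0 : Fin n := ⟨0, hn⟩
  let π : Fin m × Fin n × C → Fin m × Fin n × C := fun p =>
    if p.1 = j0 ∧ p.2.1 = k0 then (p.1, p.2.1, Equiv.swap i0 i1 p.2.2) else p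
  have hπ : ∀ p, π (π p) = p := by
    rintro ⟨j, k, i⟩
    by_cases h : j = j0 ∧ k = k0 <;> simp [π, h]
  have hinv : Function.Involutive (fun (y : Fin m × Fin n × C → X) p => y (π p)) := by
    intro y; ext p; simp [hπ]
  have hU : ∀ (a : Fin m × Fin n × C → ℝ) j,
      Usel cls (fun p => a (π p)) j = if j = j0 then - Usel cls a j else Usel cls a j := by
    intro a j
    by_cases hj : j = j0
    · subst hj
      rw [if_pos rfl, Usel, Usel, ← mul_prod_erase univ _ (mem_univ k0),
        ← mul_prod_erase univ (fun k => hid cls fun i => a (j, k, i)) (mem_univ k0)]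
      have e1 : (fun i => a (π (j, k0, i))) = fun i => a (j, k0, Equiv.swap i0 i1 i) := by
        ext i; simp [π]
      rw [e1, hid_swap cls (fun i => a (j, k0, i)) hi, neg_mul]
      congr 2
      refine prod_congr rfl fun k hk => ?_
      simp [π, ne_of_mem_erase hk]
    · rw [if_neg hj]
      simp [Usel, π, hj]
  have hM : ∀ a : Fin m × Fin n × C → ℝ, Mon cls t (fun p => a (π p)) = - Mon cls t a := by
    intro a
    simp only [Mon, hU]
    rw [← mul_prod_erase t _ hj0, ← mul_prod_erase t (fun j => Usel cls a j) hj0, if_pos rfl,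
      prod_congr rfl (fun j hj => if_neg (ne_of_mem_erase hj)),
      prod_congr rfl (fun j (hj : j ∈ univ \ t) =>
        (show (if j = j0 then - Usel cls a j else Usel cls a j) ^ 2 = Usel cls a j ^ 2 by
          split_ifs <;> ring))]
    ring
  have h1 := Fintype.expect_equiv (Function.Involutive.toPerm _ hinv)
    (fun y => - Mon cls t (fun p => v (y p))) (fun y => Mon cls t (fun p => v (y p)))
    (fun y => (hM (fun p => v (y p))).symm)
  rw [expect_neg_distrib] at h1
  linarith

lemma Mon_deg {ι : Type} {D : ℕ} (f : Fin m × Fin n × C → (ι → Bool) → ℝ)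
    (hf : ∀ p (h : ℝ → ℝ), (fun z => h (f p z)) ∈ Deg ι D)
    (hf2 : ∀ j (H : (Fin n × C → ℝ) → ℝ),
      (fun z => H (fun p => f (j, p) z)) ∈ Deg ι (n * Fintype.card C * D))
    {t : Finset (Fin m)} (ht : t ≠ ∅) :
    ∃ k, k + n * D ≤ m * n * Fintype.card C * D ∧
      (fun z => Mon cls t (fun p => f p z)) ∈ Deg ι k := by
  obtain ⟨j0, hj0⟩ := nonempty_iff_ne_empty.2 ht
  have hq : 1 ≤ Fintype.card C := Fintype.card_pos_iff.2 ⟨cls 0⟩
  have h1 : ∀ j, (fun z => Usel cls (fun p => f p z) j) ∈
      Deg ι (n * ((Fintype.card C - 1) * D)) := by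
    intro j
    have := Deg.prod (ι := ι) univ (d := fun _ : Fin n => (Fintype.card C - 1) * D)
      (f := fun k z => hid cls (fun i => f (j, k, i) z))
      (fun k _ => hid_deg cls (fun i => f (j, k, i)) (fun i => hf _))
    simpa [Usel] using this
  have h2 : ∀ j, (fun z => Usel cls (fun p => f p z) j ^ 2) ∈
      Deg ι (n * Fintype.card C * D) := fun j =>
    hf2 j (fun b => (∏ k, hid cls (fun i => b (k, i))) ^ 2)
  have h3 := Deg.mul (Deg.prod t (fun j _ => h1 j)) (Deg.prod (univ \ t) (fun j _ => h2 j))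
  refine ⟨_, ?_, h3⟩
  rw [sum_const, sum_const, smul_eq_mul, smul_eq_mul]
  have hc : t.card + (univ \ t).card = m := by
    rw [add_comm, card_sdiff_add_card_eq_card (subset_univ t)]; simp
  have ht1 : 1 ≤ t.card := card_pos.2 ⟨j0, hj0⟩
  obtain ⟨q, hq'⟩ := Nat.exists_eq_add_of_le hq
  obtain ⟨s, hs⟩ := Nat.exists_eq_add_of_le ht1
  have hm : m * n * Fintype.card C * D = (t.card + (univ \ t).card) * n * Fintype.card C * D := by
    rw [hc]
  rw [hm, hq', hs]
  simp only [add_tsub_cancel_left]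
  nlinarith [Nat.zero_le (s * n * D)]

end hid

end Crest.Agent.R63
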